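import Vale.Agent.P292.Q.Chain
import Vale.Agent.P292.K.Basic

/-! # Base points of graded maps `R → κ[s, t]`, and linear changes of the parameters. -/

namespace Vale.Agent.P292

universe u v w

variable {R : Type u} [CommRing R] [Algebra ℂ R] {𝒜 : ℕ → Submodule ℂ R} [GradedAlgebra 𝒜]
  {P : R →ₗ[ℂ] R →ₗ[ℂ] R}

open Polynomial WithZero in
/-- The slope of a homomorphism to `κ[X]` is an integer. -/
theorem nw_slope (hX : IsContactFano 𝒜 P) {κ : Type v} [Field κ] [Algebra ℂ κ]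
    (Ψ : R →ₐ[ℂ] κ[X]) (e : ℕ)
    (hΨ : ∀ k, 0 < k → ∀ r ∈ 𝒜 k, (Ψ r).natDegree < (e + 1) * k) :
    ∀ k, ∀ r ∈ 𝒜 k, (Ψ r).natDegree ≤ e * k := by
  classical
  have := hX.finiteType
  obtain ⟨s, hs, hn⟩ := exists_generators 𝒜 hX.connected
  choose! n hn0 hn using hn
  set w := RatFunc.inftyValuation κ with hw
  have hconst : ∀ c : ℂ, w (algebraMap ℂ (RatFunc κ) c) ≤ 1 := by
    intro c
    have : algebraMap ℂ (RatFunc κ) c = RatFunc.C (algebraMap ℂ κ c) := by
      rw [IsScalarTower.algebraMap_apply ℂ κ (RatFunc κ)]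
      rfl
    rw [this]
    by_cases hc : algebraMap ℂ κ c = 0
    · rw [hc, map_zero, map_zero]; exact zero_le_one
    · rw [RatFunc.inftyValuation.C κ hc]
  have key : ∀ g ∈ s, (Ψ g).natDegree ≤ e * n g := by
    by_contra hcon
    push Not at hcon
    obtain ⟨g₁, hg₁, hg₁0⟩ := hcon
    obtain ⟨g₀, hg₀, hmax⟩ := Finset.exists_max_image s
      (fun g => ((Ψ g).natDegree : ℚ) / n g) ⟨g₁, hg₁⟩
    have hk0 : 0 < n g₀ := Nat.pos_of_ne_zero (hn0 g₀ hg₀)
    have hk0' : (0 : ℚ) < n g₀ := by exact_mod_cast hk0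
    have hmax' : ∀ g ∈ s, (Ψ g).natDegree * n g₀ ≤ (Ψ g₀).natDegree * n g := by
      intro g hg
      have h1 := hmax g hg
      have hkg : (0 : ℚ) < n g := by exact_mod_cast Nat.pos_of_ne_zero (hn0 g hg)
      rw [div_le_div_iff₀ hkg hk0'] at h1
      exact_mod_cast h1
    have hi0 : e * n g₀ < (Ψ g₀).natDegree := by
      have h1 := hmax' g₁ hg₁
      have h2 : e * n g₁ * n g₀ < (Ψ g₁).natDegree * n g₀ := Nat.mul_lt_mul_of_pos_right hg₁0 hk0
      have h3 : (e * n g₀) * n g₁ < (Ψ g₀).natDegree * n g₁ := by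
        calc (e * n g₀) * n g₁ = e * n g₁ * n g₀ := by ring
          _ < (Ψ g₁).natDegree * n g₀ := h2
          _ ≤ _ := h1
      exact Nat.lt_of_mul_lt_mul_right h3
    set k₀ := n g₀ with hk₀
    set i₀ := (Ψ g₀).natDegree with hi₀
    have hlt : i₀ < (e + 1) * k₀ := hΨ k₀ hk0 g₀ (hn g₀ hg₀)
    -- the twisted point
    let x₁ : R →ₐ[ℂ] RatFunc κ :=
      ((IsScalarTower.toAlgHom ℂ κ[X] (RatFunc κ)).comp
        ((Polynomial.expand κ k₀).restrictScalars ℂ)).comp Ψ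
    have hx₁ : ∀ r, x₁ r = algebraMap κ[X] (RatFunc κ) (Polynomial.expand κ k₀ (Ψ r)) :=
      fun r => rfl
    obtain ⟨x, hx⟩ := nw_twist (𝒜 := 𝒜) x₁ ((RatFunc.X : RatFunc κ) ^ (-(i₀ : ℤ)))
    have hval : ∀ k, ∀ r ∈ 𝒜 k, Ψ r ≠ 0 →
        w (x r) = exp (((k₀ * (Ψ r).natDegree : ℕ) : ℤ) - ((i₀ * k : ℕ) : ℤ)) := by
      intro k r hr hr0
      have h1 : Polynomial.expand κ k₀ (Ψ r) ≠ 0 := (Polynomial.expand_ne_zero hk0).mpr hr0
      rw [hx k r hr, map_mul, map_pow, RatFunc.inftyValuation.X_zpow, hx₁,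
        RatFunc.inftyValuation_apply, RatFunc.inftyValuation.polynomial κ h1,
        Polynomial.natDegree_expand, ← exp_nsmul, ← exp_add]
      congr 1
      push_cast
      rw [nsmul_eq_mul]
      ring
    have hle : ∀ r, w (x r) ≤ 1 := by
      refine nw_le_one_of_generators w hconst hs x (fun g hg => ?_)
      by_cases hg0 : Ψ g = 0
      · have : x g = 0 := by
          rw [hx (n g) g (hn g hg), hx₁, hg0, map_zero, map_zero, mul_zero]
        rw [this, map_zero]; exact zero_le_one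
      · rw [hval (n g) g (hn g hg) hg0, ← exp_zero, exp_le_exp]
        have := hmax' g hg
        have h2 : k₀ * (Ψ g).natDegree ≤ i₀ * n g := by rw [mul_comm]; exact this
        omega
    have hΨg₀ : Ψ g₀ ≠ 0 := by
      intro h
      rw [h, natDegree_zero] at hi₀
      omega
    have hone : w (x g₀) = 1 := by
      rw [hval k₀ g₀ (hn g₀ hg₀) hΨg₀, ← exp_zero]
      congr 1
      rw [mul_comm k₀]
      exact sub_self _
    obtain ⟨p, hp, hpg⟩ := exists_closed_of_valuation hX w x hle g₀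
      (by rw [hone]; exact lt_irrefl 1)
    have hv : ¬ IsVertex 𝒜 p := fun h => hpg (h k₀ hk0 g₀ (hn g₀ hg₀))
    have hG0 : 0 < Nat.gcd i₀ k₀ := Nat.gcd_pos_of_pos_right _ hk0
    have key : k₀ / Nat.gcd i₀ k₀ = 1 := by
      apply hX.lineBundle p hv
      intro k r hr hr0
      have h1 : w (x r) = 1 := by
        by_contra hcon
        exact hr0 (hp r (lt_of_le_of_ne (hle r) hcon))
      have hr0' : Ψ r ≠ 0 := by
        intro h
        rw [hx k r hr, hx₁, h, map_zero, map_zero, mul_zero, map_zero] at h1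
        exact zero_ne_one h1
      rw [hval k r hr hr0', ← exp_zero, exp_inj] at h1
      have h2 : k₀ * (Ψ r).natDegree = i₀ * k := by omega
      have h3 : k₀ / Nat.gcd i₀ k₀ ∣ (i₀ / Nat.gcd i₀ k₀) * k := by
        refine ⟨(Ψ r).natDegree, Nat.eq_of_mul_eq_mul_left hG0 ?_⟩
        calc Nat.gcd i₀ k₀ * (i₀ / Nat.gcd i₀ k₀ * k)
            = (Nat.gcd i₀ k₀ * (i₀ / Nat.gcd i₀ k₀)) * k := by ring
          _ = i₀ * k := by rw [Nat.mul_div_cancel' (Nat.gcd_dvd_left _ _)]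
          _ = k₀ * (Ψ r).natDegree := h2.symm
          _ = (Nat.gcd i₀ k₀ * (k₀ / Nat.gcd i₀ k₀)) * (Ψ r).natDegree := by
              rw [Nat.mul_div_cancel' (Nat.gcd_dvd_right _ _)]
          _ = _ := by ring
      exact (Nat.Coprime.symm (Nat.coprime_div_gcd_div_gcd hG0)).dvd_of_dvd_mul_left h3
    have h4 : Nat.gcd i₀ k₀ = k₀ := by
      have := Nat.div_mul_cancel (Nat.gcd_dvd_right i₀ k₀)
      rw [key, one_mul] at this
      exact this
    have h5 : k₀ ∣ i₀ := by rw [← h4]; exact Nat.gcd_dvd_left _ _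
    obtain ⟨c, hc⟩ := h5
    rw [hc, mul_comm e] at hi0
    rw [hc, mul_comm (e + 1)] at hlt
    have h6 := Nat.lt_of_mul_lt_mul_left hi0
    have h7 := Nat.lt_of_mul_lt_mul_left hlt
    omega
  -- from the generators to all elements
  obtain ⟨x, hx⟩ := nw_twist (𝒜 := 𝒜) ((IsScalarTower.toAlgHom ℂ κ[X] (RatFunc κ)).comp Ψ)
    ((RatFunc.X : RatFunc κ) ^ (-(e : ℤ)))
  have hval : ∀ k, ∀ r ∈ 𝒜 k, Ψ r ≠ 0 →
      w (x r) = exp ((((Ψ r).natDegree : ℕ) : ℤ) - ((e * k : ℕ) : ℤ)) := by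
    intro k r hr hr0
    rw [hx k r hr, map_mul, map_pow, RatFunc.inftyValuation.X_zpow]
    change _ * w (algebraMap κ[X] (RatFunc κ) (Ψ r)) = _
    rw [RatFunc.inftyValuation_apply, RatFunc.inftyValuation.polynomial κ hr0,
      ← exp_nsmul, ← exp_add]
    congr 1
    push_cast
    rw [nsmul_eq_mul]
    ring
  have hle : ∀ r, w (x r) ≤ 1 := by
    refine nw_le_one_of_generators w hconst hs x (fun g hg => ?_)
    by_cases hg0 : Ψ g = 0
    · have : x g = 0 := by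
        rw [hx (n g) g (hn g hg)]
        change _ * algebraMap κ[X] (RatFunc κ) (Ψ g) = _
        rw [hg0, map_zero, mul_zero]
      rw [this, map_zero]; exact zero_le_one
    · rw [hval (n g) g (hn g hg) hg0, ← exp_zero, exp_le_exp]
      have := key g hg
      omega
  intro k r hr
  by_cases hr0 : Ψ r = 0
  · rw [hr0, natDegree_zero]; exact Nat.zero_le _
  · have h1 := hle r
    rw [hval k r hr hr0, ← exp_zero, exp_le_exp] at h1
    omega

open MvPolynomial

variable {κ : Type v} [Field κ] [Algebra ℂ κ]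

/-- A base point at `(0, 1)` can be removed. -/
theorem exists_div_X_zero_pow (hX : IsContactFano 𝒜 P) (d : ℕ)
    (Φ : R →ₐ[ℂ] MvPolynomial (Fin 2) κ)
    (hΦ : ∀ k, ∀ r ∈ 𝒜 k, (Φ r).IsHomogeneous ((d + 1) * k))
    (hb : ∀ k, 0 < k → ∀ r ∈ 𝒜 k, eval ![0, 1] (Φ r) = 0) :
    ∃ Φ' : R →ₐ[ℂ] MvPolynomial (Fin 2) κ, (∀ k, ∀ r ∈ 𝒜 k, (Φ' r).IsHomogeneous (d * k)) ∧
      ∀ k, ∀ r ∈ 𝒜 k, Φ r = X 0 ^ k * Φ' r := by
  let f : R →ₐ[ℂ] Polynomial κ := (nwDehom κ 0).comp Φ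
  have hf : ∀ r, f r = nwDehom κ 0 (Φ r) := fun r => rfl
  have h1 : ∀ k, 0 < k → ∀ r ∈ 𝒜 k, (f r).natDegree < (d + 1) * k := by
    intro k hk r hr
    have h2 := nwDehom_natDegree_le 0 1 (by decide) (hΦ k r hr)
    have hpos : 0 < (d + 1) * k := Nat.mul_pos (Nat.succ_pos d) hk
    rcases lt_or_eq_of_le h2 with h | h
    · exact h
    · exfalso
      have h3 : (f r).coeff ((d + 1) * k) = 0 := by
        rw [hf, nwDehom_coeff_symm (hΦ k r hr) (j := 0) (by omega), ← nw_eval_zero_one]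
        exact hb k hk r hr
      have h4 : f r = 0 := by
        rw [← Polynomial.leadingCoeff_eq_zero, Polynomial.leadingCoeff, hf, h, ← hf]
        exact h3
      rw [← hf, h4, Polynomial.natDegree_zero] at h
      omega
  have h2 := nw_slope hX f d h1
  obtain ⟨Φ', h3, -, h4⟩ := nw_homogenize (𝒜 := 𝒜) f d h2
  refine ⟨Φ', h3, fun k r hr => ?_⟩
  have h5 : (X 0 ^ k * Φ' r : MvPolynomial (Fin 2) κ).IsHomogeneous ((d + 1) * k) := by
    have h6 : (X 0 ^ k : MvPolynomial (Fin 2) κ).IsHomogeneous k := by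
      have := (isHomogeneous_X κ (0 : Fin 2)).pow k
      rwa [one_mul] at this
    have := h6.mul (h3 k r hr)
    rwa [show k + d * k = (d + 1) * k by ring] at this
  refine nwDehom_injOn (hΦ k r hr) h5 ?_
  have h7 : nwDehom κ 0 (X 0) = 1 := by simp [nwDehom]
  rw [map_mul, map_pow, h7, one_pow, one_mul, h4]
  exact (hf r).symm

/-- The linear change of parameters `x ↦ x 0 • a + x 1 • b`. -/
noncomputable def reparamHom (a b : Fin 2 → κ) :
    MvPolynomial (Fin 2) κ →ₐ[κ] MvPolynomial (Fin 2) κ :=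
  aeval fun i => C (a i) * X 0 + C (b i) * X 1

omit [Algebra ℂ κ] in
theorem eval_reparamHom (a b x : Fin 2 → κ) (p : MvPolynomial (Fin 2) κ) :
    eval x (reparamHom a b p) = eval (x 0 • a + x 1 • b) p := by
  induction p using MvPolynomial.induction_on with
  | C c => simp [reparamHom]
  | add p q hp hq => rw [map_add, map_add, map_add, hp, hq]
  | mul_X p i hp =>
    rw [map_mul, map_mul, map_mul, hp]
    congr 1
    simp [reparamHom]
    ring

omit [Algebra ℂ κ] in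
theorem isHomogeneous_reparamHom (a b : Fin 2 → κ) {p : MvPolynomial (Fin 2) κ} {n : ℕ}
    (hp : p.IsHomogeneous n) : (reparamHom a b p).IsHomogeneous n := by
  have h1 : ∀ i : Fin 2, (C (a i) * X 0 + C (b i) * X 1 :
      MvPolynomial (Fin 2) κ).IsHomogeneous 1 := by
    intro i
    refine IsHomogeneous.add ?_ ?_
    · have := (isHomogeneous_C (Fin 2) (a i)).mul (isHomogeneous_X κ (0 : Fin 2))
      rwa [zero_add] at this
    · have := (isHomogeneous_C (Fin 2) (b i)).mul (isHomogeneous_X κ (1 : Fin 2))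
      rwa [zero_add] at this
  have := hp.aeval _ h1
  rwa [one_mul] at this

/-- The curve `φ` after a linear change of parameters. -/
noncomputable def reparam (a b : Fin 2 → κ) (φ : R →ₐ[ℂ] MvPolynomial (Fin 2) κ) :
    R →ₐ[ℂ] MvPolynomial (Fin 2) κ := ((reparamHom a b).restrictScalars ℂ).comp φ

omit [GradedAlgebra 𝒜] in
theorem reparam_apply (a b : Fin 2 → κ) (φ : R →ₐ[ℂ] MvPolynomial (Fin 2) κ) (r : R) :
    reparam a b φ r = reparamHom a b (φ r) := rfl

theorem pt_reparam (a b : Fin 2 → κ) (φ : R →ₐ[ℂ] MvPolynomial (Fin 2) κ) (x : Fin 2 → κ) :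
    pt (reparam a b φ) x = pt φ (x 0 • a + x 1 • b) := by
  ext r
  rw [pt_apply, pt_apply, reparam_apply, eval_reparamHom]

theorem IsCurve.reparam {d : ℕ} {φ : R →ₐ[ℂ] MvPolynomial (Fin 2) κ} {𝒜 : ℕ → Submodule ℂ R}
    (hφ : IsCurve 𝒜 d φ)
    (a b : Fin 2 → κ) (hab : ∀ x : Fin 2 → κ, x ≠ 0 → x 0 • a + x 1 • b ≠ 0) :
    IsCurve 𝒜 d (reparam a b φ) where
  degree k r hr := isHomogeneous_reparamHom a b (hφ.degree k r hr)
  bpf x hx := by
    obtain ⟨k, hk, r, hr, h⟩ := hφ.bpf _ (hab x hx)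
    refine ⟨k, hk, r, hr, ?_⟩
    rw [aeval_eq_eval] at h ⊢
    rw [reparam_apply]
    change eval x _ ≠ 0
    rw [eval_reparamHom]
    exact h

omit [Algebra ℂ κ] in
/-- Every nonzero vector belongs to a basis. -/
theorem exists_basis_fin_two (u : Fin 2 → κ) (hu : u ≠ 0) :
    ∃ a : Fin 2 → κ, a 0 * u 1 - a 1 * u 0 ≠ 0 := by
  by_cases h : u 1 = 0
  · refine ⟨![0, 1], ?_⟩
    have h0 : u 0 ≠ 0 := by
      intro h0
      apply hu
      funext i
      fin_cases i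
      · exact h0
      · exact h
    simpa using h0
  · exact ⟨![1, 0], by simpa using h⟩

omit [Algebra ℂ κ] in
theorem ne_zero_of_det {a b : Fin 2 → κ} (h : a 0 * b 1 - a 1 * b 0 ≠ 0) (x : Fin 2 → κ)
    (hx : x ≠ 0) : x 0 • a + x 1 • b ≠ 0 := by
  intro h0
  have h1 := congrFun h0 0
  have h2 := congrFun h0 1
  simp only [Pi.add_apply, Pi.smul_apply, smul_eq_mul, Pi.zero_apply] at h1 h2
  apply hx
  have e0 : x 0 * (a 0 * b 1 - a 1 * b 0) = 0 := by linear_combination b 1 * h1 - b 0 * h2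
  have e1 : x 1 * (a 0 * b 1 - a 1 * b 0) = 0 := by linear_combination a 0 * h2 - a 1 * h1
  funext i
  fin_cases i
  · exact (mul_eq_zero.1 e0).resolve_right h
  · exact (mul_eq_zero.1 e1).resolve_right h

/-- Every curve can be reparametrised so that a given point gets the parameter `(1, 0)`. -/
theorem IsCurve.exists_reparam {d : ℕ} {φ : R →ₐ[ℂ] MvPolynomial (Fin 2) κ}
    {𝒜 : ℕ → Submodule ℂ R}
    (hφ : IsCurve 𝒜 d φ) (u : Fin 2 → κ) (hu : u ≠ 0) :
    ∃ φ' : R →ₐ[ℂ] MvPolynomial (Fin 2) κ, IsCurve 𝒜 d φ' ∧ pt φ' ![1, 0] = pt φ u := by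
  obtain ⟨a, ha⟩ := exists_basis_fin_two u hu
  refine ⟨Vale.Agent.P292.reparam u a φ, hφ.reparam u a (ne_zero_of_det ?_), ?_⟩
  · intro h
    exact ha (by linear_combination -h)
  · rw [pt_reparam]
    congr 1
    simp

/-- **Base points can be removed.** -/
theorem exists_div_basePoint (hX : IsContactFano 𝒜 P) (d : ℕ)
    (Φ : R →ₐ[ℂ] MvPolynomial (Fin 2) κ)
    (hΦ : ∀ k, ∀ r ∈ 𝒜 k, (Φ r).IsHomogeneous ((d + 1) * k)) (u : Fin 2 → κ) (hu : u ≠ 0)
    (hb : ∀ k, 0 < k → ∀ r ∈ 𝒜 k, eval u (Φ r) = 0) :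
    ∃ (Φ' : R →ₐ[ℂ] MvPolynomial (Fin 2) κ) (c : Fin 2 → κ), c ≠ 0 ∧
      c 0 * u 0 + c 1 * u 1 = 0 ∧ (∀ k, ∀ r ∈ 𝒜 k, (Φ' r).IsHomogeneous (d * k)) ∧
      ∀ k, ∀ r ∈ 𝒜 k, Φ r = (C (c 0) * X 0 + C (c 1) * X 1) ^ k * Φ' r := by
  have : Infinite κ := by
    have := charZero_of_injective_algebraMap (algebraMap ℂ κ).injective
    infer_instance
  obtain ⟨a, ha⟩ := exists_basis_fin_two u hu
  set D := a 0 * u 1 - a 1 * u 0 with hD
  obtain ⟨Ψ, h1, h2⟩ := exists_div_X_zero_pow hX d (reparam a u Φ)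
    (fun k r hr => isHomogeneous_reparamHom a u (hΦ k r hr)) (fun k hk r hr => by
      rw [reparam_apply, eval_reparamHom]
      have : (![0, 1] : Fin 2 → κ) 0 • a + (![0, 1] : Fin 2 → κ) 1 • u = u := by simp
      rw [this]
      exact hb k hk r hr)
  let a' : Fin 2 → κ := ![u 1 / D, - a 1 / D]
  let b' : Fin 2 → κ := ![- u 0 / D, a 0 / D]
  have hinv : ∀ p, reparamHom a' b' (reparamHom a u p) = p := by
    intro p
    apply MvPolynomial.funext
    intro y
    rw [eval_reparamHom, eval_reparamHom]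
    congr 1
    congr 1
    funext i
    fin_cases i
    · simp [a', b']
      field_simp
      rw [hD]; ring
    · simp [a', b']
      field_simp
      rw [hD]; ring
  refine ⟨reparam a' b' Ψ, ![u 1 / D, - u 0 / D], ?_, ?_, fun k r hr =>
    isHomogeneous_reparamHom a' b' (h1 k r hr), fun k r hr => ?_⟩
  · intro h
    have e0 := congrFun h 0
    have e1 := congrFun h 1
    simp [ha] at e0 e1
    apply hu
    funext i
    fin_cases i
    · exact e1
    · exact e0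
  · simp
    ring
  · have h3 := congrArg (reparamHom a' b') (h2 k r hr)
    rw [reparam_apply, hinv, map_mul, map_pow] at h3
    rw [h3]
    congr 2
    simp [reparamHom, a', b']

/-- Removing a base point, at the level of the values at given nonvertex points. -/
theorem isCurve_or_exists_div (hX : IsContactFano 𝒜 P) (d : ℕ)
    (Φ : R →ₐ[ℂ] MvPolynomial (Fin 2) κ)
    (hΦ : ∀ k, ∀ r ∈ 𝒜 k, (Φ r).IsHomogeneous ((d + 1) * k)) :
    IsCurve 𝒜 (d + 1) Φ ∨ ∃ (Φ' : R →ₐ[ℂ] MvPolynomial (Fin 2) κ) (l : (Fin 2 → κ) → κ),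
      (∀ k, ∀ r ∈ 𝒜 k, (Φ' r).IsHomogeneous (d * k)) ∧
      (∀ x, ∀ k, ∀ r ∈ 𝒜 k, eval x (Φ r) = l x ^ k * eval x (Φ' r)) ∧
      ∀ x, (∃ k, 0 < k ∧ ∃ r ∈ 𝒜 k, eval x (Φ r) ≠ 0) → l x ≠ 0 := by
  by_cases hb : ∀ x : Fin 2 → κ, x ≠ 0 → ∃ k, 0 < k ∧ ∃ r ∈ 𝒜 k, aeval x (Φ r) ≠ 0
  · exact Or.inl ⟨hΦ, hb⟩
  · right
    push Not at hb
    obtain ⟨u, hu, hb⟩ := hb
    obtain ⟨Φ', c, -, -, h1, h2⟩ := exists_div_basePoint hX d Φ hΦ u hu (fun k hk r hr => by
      rw [← aeval_eq_eval]; exact hb k hk r hr)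
    have h3 : ∀ x, ∀ k, ∀ r ∈ 𝒜 k, eval x (Φ r) =
        (c 0 * x 0 + c 1 * x 1) ^ k * eval x (Φ' r) := by
      intro x k r hr
      rw [h2 k r hr, map_mul, map_pow]
      congr 2
      simp
    refine ⟨Φ', fun x => c 0 * x 0 + c 1 * x 1, h1, h3, ?_⟩
    rintro x ⟨k, hk, r, hr, h⟩ h0
    apply h
    have h0' : c 0 * x 0 + c 1 * x 1 = 0 := h0
    rw [h3 x k r hr, h0', zero_pow hk.ne', zero_mul]

omit [GradedAlgebra 𝒜] in
/-- A graded map of degree zero is constant. -/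
theorem eval_eq_of_degree_zero (Φ : R →ₐ[ℂ] MvPolynomial (Fin 2) κ)
    (hΦ : ∀ k, ∀ r ∈ 𝒜 k, (Φ r).IsHomogeneous (0 * k)) (x y : Fin 2 → κ) (k : ℕ) (r : R)
    (hr : r ∈ 𝒜 k) : eval x (Φ r) = eval y (Φ r) := by
  have h := hΦ k r hr
  rw [zero_mul] at h
  have h2 : Φ r = C (coeff 0 (Φ r)) := by
    rw [← totalDegree_eq_zero_iff_eq_C]
    exact Nat.le_zero.1 h.totalDegree_le
  rw [h2, eval_C, eval_C]

/-- **Degree one.** A graded map of degree one is a line, or all its nonvertex values are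
proportional. -/
theorem isCurve_one_or (hX : IsContactFano 𝒜 P) (Φ : R →ₐ[ℂ] MvPolynomial (Fin 2) κ)
    (hΦ : ∀ k, ∀ r ∈ 𝒜 k, (Φ r).IsHomogeneous (1 * k)) (x y : Fin 2 → κ)
    (hx : ∃ k, 0 < k ∧ ∃ r ∈ 𝒜 k, eval x (Φ r) ≠ 0)
    (hy : ∃ k, 0 < k ∧ ∃ r ∈ 𝒜 k, eval y (Φ r) ≠ 0) :
    IsCurve 𝒜 1 Φ ∨ ∃ c : κ, c ≠ 0 ∧ ∀ k, ∀ r ∈ 𝒜 k, eval y (Φ r) = c ^ k * eval x (Φ r) := by
  rcases isCurve_or_exists_div hX 0 Φ hΦ with h | ⟨Φ', l, h1, h2, h3⟩
  · exact Or.inl h
  · right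
    refine ⟨l y / l x, div_ne_zero (h3 y hy) (h3 x hx), fun k r hr => ?_⟩
    rw [h2 x k r hr, h2 y k r hr, eval_eq_of_degree_zero Φ' h1 y x k r hr, div_pow]
    have := pow_ne_zero k (h3 x hx)
    field_simp

/-- The residue field of a place of an algebraically closed field is algebraically closed. -/
theorem isAlgClosed_of_isPlace {L : Type v} [Field L] [Algebra ℂ L] [IsAlgClosed L] {κ : Type w}
    [Field κ] [Algebra ℂ κ] {Γ : Type*} [LinearOrderedCommGroupWithZero Γ] {v : Valuation L Γ}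
    {res : L → κ} (hp : IsPlace v res) (hs : ∀ y, ∃ x, v x ≤ 1 ∧ res x = y) :
    IsAlgClosed κ := by
  classical
  refine IsAlgClosed.of_exists_root κ fun f hf hirr => ?_
  choose c hc1 hc2 using fun i => hs (f.coeff i)
  have hn : 0 < f.natDegree := hirr.natDegree_pos
  set n := f.natDegree with hnd
  let g : Polynomial L := Polynomial.X ^ n + ∑ i ∈ Finset.range n, Polynomial.monomial i (c i)
  have hgdeg : (∑ i ∈ Finset.range n, Polynomial.monomial i (c i) : Polynomial L).degree < n := by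
    refine lt_of_le_of_lt (Polynomial.degree_sum_le _ _) ?_
    refine (Finset.sup_lt_iff (WithBot.bot_lt_coe n)).2 ?_
    intro i hi
    exact lt_of_le_of_lt (Polynomial.degree_monomial_le _ _)
      (WithBot.coe_lt_coe.2 (Finset.mem_range.1 hi))
  have hgn : g.degree = n := by
    have h := Polynomial.degree_add_eq_left_of_degree_lt (p := (Polynomial.X ^ n : Polynomial L))
      (q := ∑ i ∈ Finset.range n, Polynomial.monomial i (c i)) (by
        rw [Polynomial.degree_X_pow]; exact hgdeg)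
    rw [Polynomial.degree_X_pow] at h
    exact h
  obtain ⟨x, hx⟩ := IsAlgClosed.exists_root g (by
    rw [hgn]
    exact_mod_cast hn.ne')
  have hgx : x ^ n + ∑ i ∈ Finset.range n, c i * x ^ i = 0 := by
    have h := hx
    rw [Polynomial.IsRoot.def] at h
    simpa [g, Polynomial.eval_finsetSum] using h
  -- the root is integral
  have hvx : v x ≤ 1 := by
    by_contra hcon
    push Not at hcon
    have h1 : v (∑ i ∈ Finset.range n, c i * x ^ i) < v (x ^ n) := by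
      refine v.map_sum_lt ?_ fun i hi => ?_
      · exact (Valuation.ne_zero_iff v).2 (pow_ne_zero _ (fun h => by
          rw [h, map_zero] at hcon; exact absurd hcon (not_lt.2 zero_le)))
      · rw [map_mul, map_pow, map_pow]
        have h2 : v (c i) * v x ^ i ≤ v x ^ i := by
          calc v (c i) * v x ^ i ≤ 1 * v x ^ i := mul_le_mul_of_nonneg_right (hc1 i) zero_le
            _ = _ := one_mul _
        exact lt_of_le_of_lt h2 (pow_lt_pow_right₀ hcon (Finset.mem_range.1 hi))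
    have h3 : v (∑ i ∈ Finset.range n, c i * x ^ i) = v (x ^ n) := by
      rw [eq_neg_of_add_eq_zero_right hgx, Valuation.map_neg]
    exact absurd h1 (by rw [h3]; exact lt_irrefl _)
  refine ⟨res x, ?_⟩
  have h4 := congrArg res hgx
  have hpow : ∀ i, v (x ^ i) ≤ 1 := fun i => by rw [map_pow]; exact pow_le_one' hvx i
  have hterm : ∀ i, v (c i * x ^ i) ≤ 1 := fun i => by
    rw [map_mul]
    exact mul_le_one' (hc1 i) (hpow i)
  rw [hp.map_zero, hp.map_add _ _ (hpow n) (v.map_sum_le fun i _ => hterm i),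
    hp.map_sum _ _ (fun i _ => hterm i), hp.map_pow x hvx] at h4
  rw [Polynomial.eval_eq_sum_range, ← hnd, Finset.sum_range_succ,
    show f.coeff n = 1 from hf, one_mul, add_comm, ← h4]
  congr 1
  refine Finset.sum_congr rfl fun i _ => ?_
  rw [hp.map_mul _ _ (hc1 i) (hpow i), hc2, hp.map_pow x hvx]

end Vale.Agent.P292
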