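import Vale.Agent.P292.Meet.BP
import Vale.Agent.P292.MM.Closed
import Vale.Agent.P292.K.Main1
import Vale.Agent.P292.K.N2c
import Vale.Agent.P292.K.Ext
import Vale.Agent.P292.K.Ultra
import Vale.Agent.P292.Q.Meet

/-! # Every homogeneous divisor is met by conics. -/

namespace Vale.Agent.P292

open MvPolynomial TensorProduct

universe u v w

variable {R : Type u} [CommRing R] [Algebra ℂ R] {𝒜 : ℕ → Submodule ℂ R} [GradedAlgebra 𝒜]
  {P : R →ₗ[ℂ] R →ₗ[ℂ] R}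

/-- **Chains give lines.** If the conic `φ` breaks at a valuation with centre the divisor `V(𝔭)`,
then there is a line which meets `V(𝔭)`. -/
theorem exists_line_of_isChain (hX : IsContactFano 𝒜 P) [IsDomain R] {L : Type v} [Field L]
    [Algebra ℂ L] {κ : Type w} [Field κ] [Algebra ℂ κ] {Γ : Type*}
    [LinearOrderedCommGroupWithZero Γ] {v : Valuation L Γ} {res : L → κ} (hp : IsPlace v res)
    {φ : R →ₐ[ℂ] MvPolynomial (Fin 2) L} (hφ : ∀ k, ∀ r ∈ 𝒜 k, (φ r).IsHomogeneous (2 * k))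
    {ρ : L} {Ψ₁ Ψ₂ : R →ₐ[ℂ] MvPolynomial (Fin 2) κ} (hch : IsChain 𝒜 v res φ ρ Ψ₁ Ψ₂)
    (𝔭 : Ideal R) [𝔭.IsPrime] (hdvr : IsDiscreteValuationRing (Localization.AtPrime 𝔭))
    (hhom : 𝔭.IsHomogeneous 𝒜) (hnv : ∃ k, 0 < k ∧ ∃ r ∈ 𝒜 k, r ∉ 𝔭)
    (hE : ∀ r, r ∈ 𝔭 ↔ res (eval ![0, 1] (φ r)) = 0) {D : R}
    (hD : res (eval ![1, 0] (φ D)) ≠ 0)
    (hW : ∃ k, ∃ g ∈ 𝒜 k, g ∈ 𝔭 ∧ res (eval ![1, 0] (φ g)) ≠ 0) :
    ∃ ψ : R →ₐ[ℂ] MvPolynomial (Fin 2) κ, IsCurve 𝒜 1 ψ ∧ ψ D ≠ 0 ∧ Meets ψ 𝔭 := by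
  classical
  have e1 : ∀ r, eval ![1, 0] (Ψ₁ r) = res (eval ![1, 0] (φ r)) := hch.end₁
  have e2 : ∀ r, eval ![1, 0] (Ψ₂ r) = res (eval ![0, 1] (φ r)) := hch.end₂
  have e3 := hch.node_eq hφ
  have e10 : (![1, 0] : Fin 2 → κ) ≠ 0 := fun h => by simpa using congrFun h 0
  have e01 : (![0, 1] : Fin 2 → κ) ≠ 0 := fun h => by simpa using congrFun h 1
  have n1 : ∃ k, 0 < k ∧ ∃ r ∈ 𝒜 k, eval ![1, 0] (Ψ₁ r) ≠ 0 := by
    by_contra hcon
    push Not at hcon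
    obtain ⟨k, g, hg, hgp, h⟩ := hW
    rcases Nat.eq_zero_or_pos k with rfl | hk
    · obtain ⟨c, rfl⟩ := hX.connected g hg
      by_cases hc : c = 0
      · rw [hc, map_zero, map_zero, map_zero, hp.map_zero] at h
        exact h rfl
      · apply ‹𝔭.IsPrime›.ne_top
        rw [Ideal.eq_top_iff_one]
        have := 𝔭.mul_mem_left (algebraMap ℂ R c⁻¹) hgp
        rwa [← map_mul, inv_mul_cancel₀ hc, map_one] at this
    · exact h (by rw [← e1]; exact hcon k hk g hg)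
  have n2 : ∃ k, 0 < k ∧ ∃ r ∈ 𝒜 k, eval ![1, 0] (Ψ₂ r) ≠ 0 := by
    obtain ⟨k, hk, r, hr, h⟩ := hnv
    exact ⟨k, hk, r, hr, fun h0 => h ((hE r).2 (by rw [← e2, h0]))⟩
  have n3 : ∃ k, 0 < k ∧ ∃ r ∈ 𝒜 k, eval ![0, 1] (Ψ₂ r) ≠ 0 := by
    obtain ⟨k, hk, r, hr, h⟩ := hch.node
    exact ⟨k, hk, r, hr, by rw [← e3]; exact h⟩
  -- the first component
  have hΨ₁D : Ψ₁ D ≠ 0 := by
    intro h
    apply hD
    rw [← e1, h, map_zero]
  have hnode : (∀ k, ∀ r ∈ 𝒜 k, r ∈ 𝔭 → eval ![0, 1] (Ψ₁ r) = 0) →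
      ∃ ψ : R →ₐ[ℂ] MvPolynomial (Fin 2) κ, IsCurve 𝒜 1 ψ ∧ ψ D ≠ 0 ∧ Meets ψ 𝔭 := by
    intro h
    rcases isCurve_one_or hX Ψ₁ hch.homog₁ ![1, 0] ![0, 1] n1 hch.node with hcur | ⟨c, hc0, hc⟩
    · refine ⟨Ψ₁, hcur, hΨ₁D, ![0, 1], e01, fun r hr => ?_⟩
      rw [← DirectSum.sum_support_decompose 𝒜 r, map_sum]
      exact Finset.sum_eq_zero fun k _ => by
        rw [pt_apply]
        exact h k _ (SetLike.coe_mem _) (hhom k hr)
    · exfalso
      obtain ⟨k, g, hg, hgp, hgW⟩ := hW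
      have h1 := hc k g hg
      rw [h k g hg hgp, e1] at h1
      exact mul_ne_zero (pow_ne_zero k hc0) hgW h1.symm
  rcases isCurve_one_or hX Ψ₂ hch.homog₂ ![1, 0] ![0, 1] n2 n3 with hcur | ⟨c, hc0, hc⟩
  · by_cases hD2 : Ψ₂ D = 0
    · -- the kernel is `𝔭`
      have hle : RingHom.ker Ψ₂ ≤ 𝔭 := fun r hr => by
        rw [hE, ← e2, (RingHom.mem_ker).1 hr, map_zero]
      have hD0 : D ≠ 0 := by
        rintro rfl
        exact hΨ₁D (map_zero _)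
      have hker : RingHom.ker Ψ₂ = 𝔭 := by
        have : (RingHom.ker Ψ₂).IsPrime := RingHom.ker_isPrime _
        rcases eq_bot_or_eq_of_dvr 𝔭 hdvr (RingHom.ker Ψ₂) hle with h | h
        · exfalso
          apply hD0
          have h2 : D ∈ RingHom.ker Ψ₂ := hD2
          rw [h] at h2
          exact (Submodule.mem_bot R).1 h2
        · exact h
      refine hnode fun k r hr hrp => ?_
      have h2 : r ∈ RingHom.ker Ψ₂ := by rw [hker]; exact hrp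
      rw [e3, (RingHom.mem_ker).1 h2, map_zero]
    · refine ⟨Ψ₂, hcur, hD2, ![1, 0], e10, fun r hr => ?_⟩
      rw [pt_apply, e2]
      exact (hE r).1 hr
  · refine hnode fun k r hr hrp => ?_
    rw [e3, hc k r hr, e2, (hE r).1 hrp, mul_zero]

omit [GradedAlgebra 𝒜] in
/-- A closed line gives a closed curve of degree two with the same image. -/
theorem exists_double {D : R} {𝔭 : Ideal R} {ψ : R →ₐ[ℂ] MvPolynomial (Fin 2) ℂ}
    (hψ : IsCurve 𝒜 1 ψ) (hD : ψ D ≠ 0) (hm : Meets ψ 𝔭) :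
    ∃ ψ' : R →ₐ[ℂ] MvPolynomial (Fin 2) ℂ, IsCurve 𝒜 2 ψ' ∧ ψ' D ≠ 0 ∧ Meets ψ' 𝔭 := by
  let T : MvPolynomial (Fin 2) ℂ →ₐ[ℂ] MvPolynomial (Fin 2) ℂ := aeval fun i => X i ^ 2
  have hT : ∀ (x : Fin 2 → ℂ) (p : MvPolynomial (Fin 2) ℂ),
      eval x (T p) = eval (fun i => x i ^ 2) p := by
    intro x p
    induction p using MvPolynomial.induction_on with
    | C c => simp [T]
    | add p q hp hq => rw [map_add, map_add, map_add, hp, hq]
    | mul_X p i hp =>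
      rw [map_mul, map_mul, map_mul, hp]
      congr 1
      simp [T]
  refine ⟨T.comp ψ, ⟨fun k r hr => ?_, fun x hx => ?_⟩, fun h => ?_, ?_⟩
  · have h1 : ∀ i : Fin 2, (X i ^ 2 : MvPolynomial (Fin 2) ℂ).IsHomogeneous 2 := fun i => by
      have := (isHomogeneous_X ℂ i).pow 2
      rwa [one_mul] at this
    have := (hψ.degree k r hr).aeval _ h1
    rwa [one_mul] at this
  · have hx2 : (fun i => x i ^ 2) ≠ 0 := by
      intro h
      apply hx
      funext i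
      exact pow_eq_zero_iff (two_ne_zero) |>.1 (congrFun h i)
    obtain ⟨k, hk, r, hr, h⟩ := hψ.bpf _ hx2
    refine ⟨k, hk, r, hr, ?_⟩
    rw [aeval_eq_eval] at h ⊢
    change eval x (T (ψ r)) ≠ 0
    rw [hT]
    exact h
  · apply hD
    apply MvPolynomial.funext
    intro y
    choose z hz using fun i => IsAlgClosed.exists_pow_nat_eq (y i) (n := 2) (by norm_num)
    have h1 : eval z (T (ψ D)) = 0 := by
      have : T (ψ D) = 0 := h
      rw [this, map_zero]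
    rw [hT] at h1
    rw [map_zero, ← h1]
    congr 1
    congr 1
    funext i
    exact (hz i).symm
  · obtain ⟨a, ha, h⟩ := hm
    choose z hz using fun i => IsAlgClosed.exists_pow_nat_eq (a i) (n := 2) (by norm_num)
    refine ⟨z, fun h0 => ha ?_, fun r hr => ?_⟩
    · funext i
      rw [← hz i, h0]
      simp
    · rw [pt_apply]
      change eval z (T (ψ r)) = 0
      rw [hT, show (fun i => z i ^ 2) = a from funext hz, ← pt_apply]
      exact h r hr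

omit [GradedAlgebra 𝒜] in
theorem eval_one_zero_eq_nw {κ : Type v} [Field κ] [Algebra ℂ κ] {p : MvPolynomial (Fin 2) κ}
    {N : ℕ} (hp : p.IsHomogeneous N) : eval ![1, 0] p = (nwDehom κ 1 p).coeff N := by
  rw [nw_eval_one_zero, nwDehom_coeff_symm hp (i := 0) (j := N) (by omega)]

/-- Nonzero homogeneous elements of a homogeneous prime of height one. -/
theorem exists_homogeneous_mem_of_dvr [IsDomain R] (𝔭 : Ideal R) [𝔭.IsPrime]
    (hdvr : IsDiscreteValuationRing (Localization.AtPrime 𝔭)) (hhom : 𝔭.IsHomogeneous 𝒜) :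
    ∃ k, ∃ r ∈ 𝒜 k, r ≠ 0 ∧ r ∈ 𝔭 := by
  classical
  have h1 : 𝔭 ≠ ⊥ := by
    intro h0
    apply IsDiscreteValuationRing.not_a_field (Localization.AtPrime 𝔭)
    rw [← IsLocalization.AtPrime.map_eq_maximalIdeal 𝔭 (Localization.AtPrime 𝔭)]
    refine (Ideal.map_eq_bot_iff_le_ker _).2 fun x hx => ?_
    rw [h0] at hx
    rw [(Submodule.mem_bot R).1 hx]
    exact Ideal.zero_mem _
  obtain ⟨r, hr, hr0⟩ := Submodule.exists_mem_ne_zero_of_ne_bot h1
  have h2 : ∃ k, (DirectSum.decompose 𝒜 r k : R) ≠ 0 := by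
    by_contra hcon
    push Not at hcon
    apply hr0
    rw [← DirectSum.sum_support_decompose 𝒜 r]
    exact Finset.sum_eq_zero fun k _ => hcon k
  obtain ⟨k, hk⟩ := h2
  exact ⟨k, _, SetLike.coe_mem _, hk, hhom k hr⟩

/-- A prime of height one is not the vertex. -/
theorem exists_notMem_of_dvr (hX : IsContactFano 𝒜 P) [IsDomain R] (hdim : 3 ≤ cdim R)
    (𝔭 : Ideal R) [𝔭.IsPrime] (hdvr : IsDiscreteValuationRing (Localization.AtPrime 𝔭)) :
    ∃ k, 0 < k ∧ ∃ r ∈ 𝒜 k, r ∉ 𝔭 := by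
  by_contra hcon
  push Not at hcon
  obtain ⟨w₀, hw₀⟩ := hX.nonempty
  refine not_le_of_dvr hX hdim w₀ hw₀ 𝔭 hdvr fun k r hr h => ?_
  rcases Nat.eq_zero_or_pos k with rfl | hk
  · obtain ⟨c, rfl⟩ := hX.connected r hr
    rw [AlgHom.commutes] at h
    have hc0 : c = 0 := h
    rw [hc0, map_zero]
    exact 𝔭.zero_mem
  · exact hcon k hk r hr

omit [GradedAlgebra 𝒜] in
/-- **Good reduction gives roots.** If the conic `φ` does not break at a valuation with centre the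
divisor `V(𝔭)`, then it meets `V(𝔭)`. -/
theorem meets_of_bounded [IsDomain R] {Ω : Type v} [Field Ω] [IsAlgClosed Ω]
    [Algebra ℂ Ω] {φ : R →ₐ[ℂ] MvPolynomial (Fin 2) Ω}
    (hφ : ∀ k, ∀ r ∈ 𝒜 k, (φ r).IsHomogeneous (2 * k)) (O : ValuationSubring Ω)
    (hb : ∀ r m, O.valuation (coeff m (φ r)) ≤ 1) (𝔭 : Ideal R) [𝔭.IsPrime]
    (hdvr : IsDiscreteValuationRing (Localization.AtPrime 𝔭))
    (hE : ∀ r, r ∈ 𝔭 ↔ O.valuation (eval ![0, 1] (φ r)) < 1)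
    (hW : ∃ k, ∃ g ∈ 𝒜 k, g ≠ 0 ∧ g ∈ 𝔭 ∧ O.valuation (eval ![1, 0] (φ g)) = 1) :
    Meets φ 𝔭 := by
  obtain ⟨k, g, hg, hg0, hgp, hgW⟩ := hW
  have hcoeff : ∀ r i, ((nwDehom Ω 1 (φ r)).coeff i) =
      ∑ m ∈ (φ r).support.filter (fun m => m 0 = i), coeff m (φ r) := by
    classical
    intro r i
    rw [nwDehom_apply 1 0 (by decide), Polynomial.finsetSum_coeff, Finset.sum_filter]
    refine Finset.sum_congr rfl fun m _ => ?_
    rw [Polynomial.coeff_C_mul_X_pow]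
    by_cases h : m 0 = i
    · rw [if_pos h.symm, if_pos h]
    · rw [if_neg (fun h' => h h'.symm), if_neg h]
  obtain ⟨a, -, ha⟩ := exists_root_prime O ((nwDehom Ω 1).comp φ).toRingHom
    (fun r i => by
      change O.valuation ((nwDehom Ω 1 (φ r)).coeff i) ≤ 1
      rw [hcoeff]
      exact O.valuation.map_sum_le fun m _ => hb r m) 𝔭
    (fun r => by
      change r ∈ 𝔭 ↔ O.valuation ((nwDehom Ω 1 (φ r)).coeff 0) < 1
      rw [← nw_eval_zero_one]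
      exact hE r)
    (fun q hq hqp hq0 => (eq_bot_or_eq_of_dvr 𝔭 hdvr q hqp).resolve_left hq0) hgp hg0
    ⟨2 * k, by
      change O.valuation ((nwDehom Ω 1 (φ g)).coeff (2 * k)) = 1
      rw [← eval_one_zero_eq_nw (hφ k g hg)]
      exact hgW⟩
  refine ⟨![a, 1], fun h => by simpa using congrFun h 1, fun r hr => ?_⟩
  rw [pt_apply, ← eval_nwDehom_one]
  exact (ha r).2 hr

/-- **Conics meet all divisors.** -/
theorem meetsAll_two (hX : IsContactFano 𝒜 P) [IsDomain R] (hdim : 3 ≤ cdim R)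
    (hc : IsConicConnected 𝒜) : MeetsAll 𝒜 2 := by
  classical
  intro D hD 𝔭 h𝔭 hdvr hhom
  have := hX.finiteType
  obtain ⟨F, hF0, hF⟩ := hc
  obtain ⟨g₁, hg₁, hg₁F⟩ := exists_evLeft_ne_zero F hF0
  obtain ⟨k₀, g₀, hg₀, hg₀0, hg₀p⟩ := exists_homogeneous_mem_of_dvr 𝔭 hdvr hhom
  obtain ⟨w, hw⟩ := exists_closed_ne hX (g₁ * D * g₀) (mul_ne_zero (mul_ne_zero hg₁ hD) hg₀0)
  rw [map_mul, map_mul] at hw
  have hwg₀ : w g₀ ≠ 0 := right_ne_zero_of_mul hw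
  have hwD : w D ≠ 0 := right_ne_zero_of_mul (left_ne_zero_of_mul hw)
  have hwg₁ : w g₁ ≠ 0 := left_ne_zero_of_mul (left_ne_zero_of_mul hw)
  obtain ⟨Ω, _, _, _, φ, hφ⟩ := exists_genConicAt hX w (evLeft F w) (hg₁F w hwg₁)
    (fun q hq => hF w q (by rw [← apply_evLeft]; exact hq))
  obtain ⟨O, hO⟩ := exists_valuationSubring_prime (pt φ ![0, 1]).toRingHom hφ.inj 𝔭
  have hO1 : ∀ r, O.valuation (pt φ ![0, 1] r) ≤ 1 := fun r =>
    (O.valuation_le_one_iff _).2 (hO r).1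
  have hc1 : ∀ c : ℂ, O.valuation (algebraMap ℂ Ω c) ≤ 1 := fun c => by
    have := hO1 (algebraMap ℂ R c)
    rwa [AlgHom.commutes] at this
  have hc2 : ∀ c : ℂ, c ≠ 0 → O.valuation (algebraMap ℂ Ω c) = 1 := fun c hc => by
    refine le_antisymm (hc1 c) ?_
    have h1 := hc1 c⁻¹
    rw [map_inv₀, map_inv₀] at h1
    have h2 : O.valuation (algebraMap ℂ Ω c) ≠ 0 := by
      rw [Valuation.ne_zero_iff]
      exact fun h => hc ((algebraMap ℂ Ω).injective (by rw [h, map_zero]))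
    exact (inv_le_one₀ (zero_lt_iff.2 h2)).1 h1
  have hW : ∀ r, eval ![1, 0] (φ r) = algebraMap ℂ Ω (w r) := fun r => by
    rw [← pt_apply]; exact hφ.left r
  obtain ⟨κ, _, _, res, hp, hs⟩ := exists_isPlace O.valuation hc1
  have hκ : IsAlgClosed κ := isAlgClosed_of_isPlace hp hs
  have hφD : φ D ≠ 0 := by
    intro h
    have := hW D
    rw [h, map_zero] at this
    exact hwD ((algebraMap ℂ Ω).injective (by rw [← this, map_zero]))
  rcases good_or_chain hX hp hφ.curve.degree (fun r => by rw [hW]; exact hc1 _)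
    (fun r => by rw [← pt_apply]; exact hO1 r) with ⟨Φ₀, -, hred⟩ | ⟨ρ, Ψ₁, Ψ₂, hch⟩
  · refine exists_closed_meets hφ.curve hφD (meets_of_bounded hφ.curve.degree O hred.bound 𝔭 hdvr
      (fun r => by rw [← pt_apply]; exact (hO r).2) ⟨k₀, g₀, hg₀, hg₀0, hg₀p, ?_⟩)
    rw [hW]
    exact hc2 _ hwg₀
  · have hres : ∀ c : ℂ, c ≠ 0 → res (algebraMap ℂ Ω c) ≠ 0 := fun c hc => by
      rw [hp.map_algebraMap]
      exact fun h => hc ((algebraMap ℂ κ).injective (by rw [h, map_zero]))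
    obtain ⟨ψ, h1, h2, h3⟩ := exists_line_of_isChain hX hp hφ.curve.degree hch 𝔭 hdvr hhom
      (exists_notMem_of_dvr hX hdim 𝔭 hdvr) (fun r => by
        rw [hp.eq_zero_iff _ (by rw [← pt_apply]; exact hO1 r), ← pt_apply]
        exact (hO r).2) (D := D) (by rw [hW]; exact hres _ hwD)
      ⟨k₀, g₀, hg₀, hg₀p, by rw [hW]; exact hres _ hwg₀⟩
    obtain ⟨ψ₀, h4, h5, h6⟩ := exists_closed_meets h1 h2 h3
    exact exists_double h4 h5 h6

end Vale.Agent.P292
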