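import Vale.Agent.P292.Meet.BP
import Vale.Agent.P292.K.MeetDefs
import Vale.Agent.P292.K.N3
import Vale.Agent.P292.K.N2c
import Vale.Agent.P292.K.Ext
import Vale.Agent.P292.K.Ultra
import Vale.Agent.P292.MM.Tensor

/-! # If a dense set of points lies on no line, then conics meet all divisors. -/

namespace Vale.Agent.P292

open MvPolynomial TensorProduct

universe u v w

variable {R : Type u} [CommRing R] [Algebra ℂ R] {𝒜 : ℕ → Submodule ℂ R} [GradedAlgebra 𝒜]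
  {P : R →ₗ[ℂ] R →ₗ[ℂ] R}

/-- If no closed line passes through the points where `g` does not vanish, then `g` vanishes on
all lines over all algebraically closed fields. -/
theorem line_apply_eq_zero (hX : IsContactFano 𝒜 P) {g : R}
    (hg : ∀ w : R →ₐ[ℂ] ℂ, w g ≠ 0 →
      ¬ ∃ ψ : R →ₐ[ℂ] MvPolynomial (Fin 2) ℂ, IsCurve 𝒜 1 ψ ∧ pt ψ ![1, 0] = w)
    {κ : Type v} [Field κ] [IsAlgClosed κ] [Algebra ℂ κ] {Ψ : R →ₐ[ℂ] MvPolynomial (Fin 2) κ}
    (hΨ : IsCurve 𝒜 1 Ψ) : Ψ g = 0 := by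
  have := hX.finiteType
  by_contra hne
  obtain ⟨m, hm⟩ := ne_zero_iff.1 hne
  obtain ⟨A₀, σ, ψ, hψ, h1, -, h2⟩ := hΨ.exists_closed' {coeff m (Ψ g)} (by simpa using hm)
  have h3 : ψ g ≠ 0 := by
    intro h
    obtain ⟨h4, h5⟩ := h1 g m
    obtain ⟨h6, h7⟩ := h2 (coeff m (Ψ g)) (by simp)
    rw [h, coeff_zero] at h5
    exact h7 h5.symm
  have h4 : (X 0 : MvPolynomial (Fin 2) ℂ) * ψ g ≠ 0 := mul_ne_zero (X_ne_zero 0) h3
  have h5 : ∃ u : Fin 2 → ℂ, eval u (X 0 * ψ g) ≠ 0 := by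
    by_contra hcon
    push Not at hcon
    exact h4 (MvPolynomial.funext fun x => by rw [hcon x, map_zero])
  obtain ⟨u, hu⟩ := h5
  rw [map_mul, eval_X] at hu
  have hu0 : u ≠ 0 := by
    rintro rfl
    exact hu (by simp)
  obtain ⟨φ', hφ', h6⟩ := hψ.exists_reparam u hu0
  refine hg (pt ψ u) ?_ ⟨φ', hφ', h6⟩
  rw [pt_apply]
  exact right_ne_zero_of_mul hu

theorem eval_one_zero_eq_coeff {κ : Type v} [Field κ] [Algebra ℂ κ] {p : MvPolynomial (Fin 2) κ}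
    {N : ℕ} (hp : p.IsHomogeneous N) : eval ![1, 0] p = coeff (Finsupp.single 0 N) p := by
  rw [nw_eval_one_zero, ← nwDehom_coeff 0 1 (by decide) hp (m := Finsupp.single 0 N) (by simp)]
  simp

theorem eval_zero_one_eq_coeff {κ : Type v} [Field κ] [Algebra ℂ κ] {p : MvPolynomial (Fin 2) κ}
    {N : ℕ} (hp : p.IsHomogeneous N) : eval ![0, 1] p = coeff (Finsupp.single 1 N) p := by
  rw [nw_eval_zero_one, ← nwDehom_coeff 1 0 (by decide) hp (m := Finsupp.single 1 N) (by simp)]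
  simp

/-- **Case A.** If a dense set of closed points lies on no line, then every homogeneous divisor is
met by conics. -/
theorem meets_conic (hX : IsContactFano 𝒜 P) [IsDomain R] (hdim : 3 ≤ cdim R)
    (hc : IsConicConnected 𝒜) (hno : NoLines 𝒜) : MeetsAll 𝒜 2 := by
  classical
  intro D hD 𝔭 h𝔭 hdvr hhom
  have := hX.finiteType
  obtain ⟨F, hF0, hF⟩ := hc
  obtain ⟨g, hg0, hg⟩ := hno
  have hdomRR : IsDomain (R ⊗[ℂ] R) := isDomain_tensor
  let p : R →ₐ[ℂ] R ⊗[ℂ] R := Algebra.TensorProduct.includeLeft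
  let q : R →ₐ[ℂ] R ⊗[ℂ] R := Algebra.TensorProduct.includeRight
  have hft : Algebra.FiniteType ℂ (R ⊗[ℂ] R) :=
    Algebra.FiniteType.trans (S := R) inferInstance inferInstance
  obtain ⟨Ω, _, _, _, i, φ, hi, hφ, h10, h01⟩ := exists_conic_of_isConicConnected hX hF p q (by
    rw [Algebra.TensorProduct.lift_includeLeft_includeRight]
    exact hF0)
  -- the valuation over the divisor `R ⊗ 𝔭`
  have hdomB : IsDomain (R ⊗[ℂ] (R ⧸ 𝔭)) := isDomain_tensor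
  let π : R ⊗[ℂ] R →ₐ[ℂ] R ⊗[ℂ] (R ⧸ 𝔭) :=
    Algebra.TensorProduct.map (AlgHom.id ℂ R) (Ideal.Quotient.mkₐ ℂ 𝔭)
  have h𝔓 : (RingHom.ker π).IsPrime := RingHom.ker_isPrime _
  obtain ⟨O, hO⟩ := exists_valuationSubring_prime i.toRingHom hi (RingHom.ker π)
  have hvi : ∀ a, O.valuation (i a) ≤ 1 := fun a => (O.valuation_le_one_iff _).2 (hO a).1
  obtain ⟨κ, _, _, res, hp, hs⟩ := exists_isPlace O.valuation (fun c => by
    rw [← i.commutes]; exact hvi _)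
  have hκ : IsAlgClosed κ := isAlgClosed_of_isPlace hp hs
  have hres0 : ∀ a, res (i a) = 0 ↔ π a = 0 := fun a =>
    (hp.eq_zero_iff _ (hvi a)).trans (hO a).2.symm
  -- the end points
  have hW : ∀ r, eval ![1, 0] (φ r) = i (r ⊗ₜ 1) := fun r => by
    rw [← pt_apply, h10]; rfl
  have hE : ∀ r, eval ![0, 1] (φ r) = i (1 ⊗ₜ r) := fun r => by
    rw [← pt_apply, h01]; rfl
  have hW0 : ∀ r, res (i (r ⊗ₜ 1)) = 0 → r = 0 := by
    intro r hr
    rw [hres0] at hr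
    have h1 : (Algebra.TensorProduct.includeLeft : R →ₐ[ℂ] R ⊗[ℂ] (R ⧸ 𝔭)) r = 0 := by
      rw [← hr]
      simp [π]
    exact Algebra.TensorProduct.includeLeft_injective (S := ℂ)
      (algebraMap ℂ (R ⧸ 𝔭)).injective (by rw [h1, map_zero])
  have hE0 : ∀ r, res (i (1 ⊗ₜ r)) = 0 ↔ r ∈ 𝔭 := by
    intro r
    rw [hres0]
    have h1 : π (1 ⊗ₜ r) = (Algebra.TensorProduct.includeRight : (R ⧸ 𝔭) →ₐ[ℂ] R ⊗[ℂ] (R ⧸ 𝔭))
        (Ideal.Quotient.mk 𝔭 r) := by simp [π]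
    rw [h1, ← Ideal.Quotient.eq_zero_iff_mem]
    constructor
    · intro h
      exact Algebra.TensorProduct.includeRight_injective (algebraMap ℂ R).injective
        (by rw [h, map_zero])
    · intro h
      rw [h, map_zero]
  -- nonvertex points
  obtain ⟨w₀, hw₀⟩ := hX.nonempty
  have hWnv : ∃ k, 0 < k ∧ ∃ r ∈ 𝒜 k, r ≠ 0 := by
    have h1 := hw₀
    unfold IsVertex at h1
    push Not at h1
    obtain ⟨k, hk, r, hr, h⟩ := h1
    exact ⟨k, hk, r, hr, fun h0 => h (by rw [h0, map_zero])⟩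
  have hEnv : ∃ k, 0 < k ∧ ∃ r ∈ 𝒜 k, r ∉ 𝔭 := by
    by_contra hcon
    push Not at hcon
    refine not_le_of_dvr hX hdim w₀ hw₀ 𝔭 hdvr fun k r hr h => ?_
    rcases Nat.eq_zero_or_pos k with rfl | hk
    · obtain ⟨c, rfl⟩ := hX.connected r hr
      rw [AlgHom.commutes] at h
      have hc0 : c = 0 := h
      rw [hc0, map_zero]
      exact 𝔭.zero_mem
    · exact hcon k hk r hr
  have h𝔭0 : ∃ k, ∃ r ∈ 𝒜 k, r ≠ 0 ∧ r ∈ 𝔭 := by
    have h1 : 𝔭 ≠ ⊥ := by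
      intro h0
      apply IsDiscreteValuationRing.not_a_field (Localization.AtPrime 𝔭)
      rw [← IsLocalization.AtPrime.map_eq_maximalIdeal 𝔭 (Localization.AtPrime 𝔭)]
      refine (Ideal.map_eq_bot_iff_le_ker _).2 fun x hx => ?_
      rw [h0] at hx
      rw [(Submodule.mem_bot R).1 hx]
      exact Ideal.zero_mem _
    obtain ⟨r, hr, hr0⟩ := Submodule.exists_mem_ne_zero_of_ne_bot h1
    have h2 : ∃ k, (DirectSum.decompose 𝒜 r k : R) ≠ 0 := by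
      by_contra hcon
      push Not at hcon
      apply hr0
      rw [← DirectSum.sum_support_decompose 𝒜 r]
      exact Finset.sum_eq_zero fun k _ => hcon k
    obtain ⟨k, hk⟩ := h2
    exact ⟨k, _, SetLike.coe_mem _, hk, hhom k hr⟩
  have hcontra : ∀ c : κ, c ≠ 0 → ¬ ∀ k, ∀ r ∈ 𝒜 k, res (i (1 ⊗ₜ r)) = c ^ k * res (i (r ⊗ₜ 1)) := by
    intro c hc h
    obtain ⟨k, r, hr, hr0, hrp⟩ := h𝔭0
    have h1 := h k r hr
    rw [(hE0 r).2 hrp] at h1
    exact mul_ne_zero (pow_ne_zero k hc) (fun h2 => hr0 (hW0 r h2)) h1.symm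
  -- a line with the value `W` is impossible
  have hline : ∀ (Ψ : R →ₐ[ℂ] MvPolynomial (Fin 2) κ), IsCurve 𝒜 1 Ψ →
      ∀ x : Fin 2 → κ, ¬ ∀ k, ∀ r ∈ 𝒜 k, eval x (Ψ r) = res (i (r ⊗ₜ 1)) := by
    intro Ψ hΨ x h
    have h1 := nw_res_ext (𝒜 := 𝒜) hp (pt Ψ x).toLinearMap (i.comp p).toLinearMap
      (fun r => hvi _) (fun k r hr => by
        change pt Ψ x r = res (i (p r))
        rw [pt_apply]; exact h k r hr) g
    change pt Ψ x g = res (i (p g)) at h1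
    rw [pt_apply, line_apply_eq_zero hX hg hΨ, map_zero] at h1
    exact hg0 (hW0 g h1.symm)
  rcases good_or_chain hX hp hφ.degree (fun r => by rw [hW]; exact hvi _)
    (fun r => by rw [hE]; exact hvi _) with ⟨Φ₀, hΦ₀, hred⟩ | ⟨ρ, Ψ₁, Ψ₂, hch⟩
  · -- good reduction
    have e10 : ∀ k, ∀ r ∈ 𝒜 k, eval ![1, 0] (Φ₀ r) = res (i (r ⊗ₜ 1)) := by
      intro k r hr
      rw [eval_one_zero_eq_coeff (hΦ₀ k r hr), hred.coeff, ← hW,
        eval_one_zero_eq_coeff (hφ.degree k r hr)]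
    have e01 : ∀ k, ∀ r ∈ 𝒜 k, eval ![0, 1] (Φ₀ r) = res (i (1 ⊗ₜ r)) := by
      intro k r hr
      rw [eval_zero_one_eq_coeff (hΦ₀ k r hr), hred.coeff, ← hE,
        eval_zero_one_eq_coeff (hφ.degree k r hr)]
    have e10' : ∀ r, pt Φ₀ ![1, 0] r = res (i (r ⊗ₜ 1)) := nw_res_ext (𝒜 := 𝒜) hp
      (pt Φ₀ ![1, 0]).toLinearMap (i.comp p).toLinearMap (fun r => hvi _)
      (fun k r hr => by
        change pt Φ₀ ![1, 0] r = res (i (p r))
        rw [pt_apply]; exact e10 k r hr)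
    have e01' : ∀ r, pt Φ₀ ![0, 1] r = res (i (1 ⊗ₜ r)) := nw_res_ext (𝒜 := 𝒜) hp
      (pt Φ₀ ![0, 1]).toLinearMap (i.comp q).toLinearMap (fun r => hvi _)
      (fun k r hr => by
        change pt Φ₀ ![0, 1] r = res (i (q r))
        rw [pt_apply]; exact e01 k r hr)
    have n10 : ∃ k, 0 < k ∧ ∃ r ∈ 𝒜 k, eval ![1, 0] (Φ₀ r) ≠ 0 := by
      obtain ⟨k, hk, r, hr, h⟩ := hWnv
      exact ⟨k, hk, r, hr, fun h0 => h (hW0 r (by rw [← e10 k r hr, h0]))⟩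
    have n01 : ∃ k, 0 < k ∧ ∃ r ∈ 𝒜 k, eval ![0, 1] (Φ₀ r) ≠ 0 := by
      obtain ⟨k, hk, r, hr, h⟩ := hEnv
      exact ⟨k, hk, r, hr, fun h0 => h ((hE0 r).1 (by rw [← e01 k r hr, h0]))⟩
    rcases isCurve_or_exists_div hX 1 Φ₀ hΦ₀ with hcur | ⟨Φ', l, h1, h2, h3⟩
    · have hcur2 : IsCurve 𝒜 2 Φ₀ := hcur
      have hΦD : Φ₀ D ≠ 0 := by
        intro h
        have h4 := e10' D
        rw [pt_apply, h, map_zero] at h4
        exact hD (hW0 D h4.symm)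
      obtain ⟨m, hm⟩ := ne_zero_iff.1 hΦD
      obtain ⟨A₀, σ, ψ, hψ, h1, h2, h3⟩ := hcur2.exists_closed' {coeff m (Φ₀ D)} (by simpa using hm)
      refine ⟨ψ, hψ, ?_, ![0, 1], ?_, ?_⟩
      · intro h
        obtain ⟨h4, h5⟩ := h1 D m
        obtain ⟨h6, h7⟩ := h3 (coeff m (Φ₀ D)) (by simp)
        rw [h, coeff_zero] at h5
        exact h7 h5.symm
      · intro h
        have := congrFun h 1
        simp at this
      · intro r hr
        have h4 := h2 ![0, 1] r 0 (by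
          have h5 : (fun i => algebraMap ℂ κ (![0, 1] i)) = (![0, 1] : Fin 2 → κ) := by
            funext j; fin_cases j <;> simp
          rw [h5, aeval_eq_eval]
          change eval ![0, 1] (Φ₀ r) = _
          rw [← pt_apply, e01' r, (hE0 r).2 hr, map_zero])
        rw [aeval_eq_eval] at h4
        rw [pt_apply]
        exact h4
    · exfalso
      have l10 := h3 _ n10
      have l01 := h3 _ n01
      have m10 : ∃ k, 0 < k ∧ ∃ r ∈ 𝒜 k, eval ![1, 0] (Φ' r) ≠ 0 := by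
        obtain ⟨k, hk, r, hr, h⟩ := n10
        exact ⟨k, hk, r, hr, fun h0 => h (by rw [h2 _ k r hr, h0, mul_zero])⟩
      have m01 : ∃ k, 0 < k ∧ ∃ r ∈ 𝒜 k, eval ![0, 1] (Φ' r) ≠ 0 := by
        obtain ⟨k, hk, r, hr, h⟩ := n01
        exact ⟨k, hk, r, hr, fun h0 => h (by rw [h2 _ k r hr, h0, mul_zero])⟩
      rcases isCurve_one_or hX Φ' h1 ![1, 0] ![0, 1] m10 m01 with hcur | ⟨c, hc0, hc⟩
      · refine hline Φ' hcur (l ![1, 0] • ![1, 0]) fun k r hr => ?_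
        rw [eval_smul_form (h1 k r hr), one_mul, ← e10 k r hr, h2 _ k r hr]
      · refine hcontra (l ![0, 1] * c / l ![1, 0]) (div_ne_zero (mul_ne_zero l01 hc0) l10)
          fun k r hr => ?_
        rw [← e01 k r hr, ← e10 k r hr, h2 _ k r hr, h2 _ k r hr, hc k r hr, div_pow, mul_pow]
        have := pow_ne_zero k l10
        field_simp
  · -- chain
    exfalso
    have e1 : ∀ r, eval ![1, 0] (Ψ₁ r) = res (i (r ⊗ₜ 1)) := fun r => by rw [hch.end₁, hW]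
    have e2 : ∀ r, eval ![1, 0] (Ψ₂ r) = res (i (1 ⊗ₜ r)) := fun r => by rw [hch.end₂, hE]
    have e3 := hch.node_eq hφ.degree
    have n1 : ∃ k, 0 < k ∧ ∃ r ∈ 𝒜 k, eval ![1, 0] (Ψ₁ r) ≠ 0 := by
      obtain ⟨k, hk, r, hr, h⟩ := hWnv
      exact ⟨k, hk, r, hr, fun h0 => h (hW0 r (by rw [← e1, h0]))⟩
    have n2 : ∃ k, 0 < k ∧ ∃ r ∈ 𝒜 k, eval ![1, 0] (Ψ₂ r) ≠ 0 := by
      obtain ⟨k, hk, r, hr, h⟩ := hEnv
      exact ⟨k, hk, r, hr, fun h0 => h ((hE0 r).1 (by rw [← e2, h0]))⟩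
    have n3 : ∃ k, 0 < k ∧ ∃ r ∈ 𝒜 k, eval ![0, 1] (Ψ₂ r) ≠ 0 := by
      obtain ⟨k, hk, r, hr, h⟩ := hch.node
      exact ⟨k, hk, r, hr, by rw [← e3]; exact h⟩
    rcases isCurve_one_or hX Ψ₁ hch.homog₁ ![1, 0] ![0, 1] n1 hch.node with hcur | ⟨c, hc0, hc⟩
    · exact hline Ψ₁ hcur ![1, 0] fun k r hr => e1 r
    · rcases isCurve_one_or hX Ψ₂ hch.homog₂ ![1, 0] ![0, 1] n2 n3 with hcur | ⟨c', hc0', hc'⟩
      · refine hline Ψ₂ hcur (c⁻¹ • ![0, 1]) fun k r hr => ?_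
        rw [eval_smul_form (hch.homog₂ k r hr), one_mul, ← e3, hc k r hr, e1, ← mul_assoc,
          ← mul_pow, inv_mul_cancel₀ hc0, one_pow, one_mul]
      · refine hcontra (c / c') (div_ne_zero hc0 hc0') fun k r hr => ?_
        have h4 := hc' k r hr
        rw [← e3, hc k r hr, e1, e2] at h4
        rw [div_pow]
        have := pow_ne_zero k hc0'
        field_simp
        rw [mul_comm, ← h4]

end Vale.Agent.P292
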