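import Vale.Agent.P292.K.MeetDefs
import Vale.Agent.P292.K.Ultra

/-! # If lines pass through a dense set of points, there is a generic line. -/

namespace Vale.Agent.P292

open MvPolynomial

universe u v

variable {R : Type u} [CommRing R] [Algebra ℂ R] {𝒜 : ℕ → Submodule ℂ R} [GradedAlgebra 𝒜]
  {P : R →ₗ[ℂ] R →ₗ[ℂ] R}

/-- If the closed points on lines are dense, then there is a line through the generic point. -/
theorem exists_generic_line (hX : IsContactFano 𝒜 P) [IsDomain R] (h : ¬ NoLines 𝒜) :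
    ∃ (κ : Type u) (_ : Field κ) (_ : IsAlgClosed κ) (_ : Algebra ℂ κ)
      (ψ : R →ₐ[ℂ] MvPolynomial (Fin 2) κ), IsCurve 𝒜 1 ψ ∧
      Function.Injective (pt ψ ![1, 0]) := by
  classical
  have := hX.finiteType
  have hd : ∀ g : R, g ≠ 0 → ∃ w : R →ₐ[ℂ] ℂ, w g ≠ 0 ∧
      ∃ ψ : R →ₐ[ℂ] MvPolynomial (Fin 2) ℂ, IsCurve 𝒜 1 ψ ∧ pt ψ ![1, 0] = w := by
    intro g hg
    by_contra hcon
    push Not at hcon
    exact h ⟨g, hg, fun w hw => by
      rintro ⟨ψ, h1, h2⟩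
      exact hcon w hw ψ h1 h2⟩
  let S := {w : R →ₐ[ℂ] ℂ //
    ∃ ψ : R →ₐ[ℂ] MvPolynomial (Fin 2) ℂ, IsCurve 𝒜 1 ψ ∧ pt ψ ![1, 0] = w}
  let F : Filter S := Filter.generate {V | ∃ a : R, a ≠ 0 ∧ V = {s : S | s.1 a ≠ 0}}
  have hne : F.NeBot := by
    rw [Filter.generate_neBot_iff]
    intro t ht htf
    have key : ∀ t : Set (Set S), t.Finite →
        t ⊆ {V | ∃ a : R, a ≠ 0 ∧ V = {s : S | s.1 a ≠ 0}} →
        ∃ a : R, a ≠ 0 ∧ ∀ s : S, s.1 a ≠ 0 → s ∈ ⋂₀ t := by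
      intro t htf
      induction t, htf using Set.Finite.induction_on with
      | empty => intro _; exact ⟨1, one_ne_zero, fun s _ => by simp⟩
      | insert _ _ ih =>
        intro ht
        obtain ⟨a, ha, h1⟩ := ih fun x hx => ht (Set.mem_insert_of_mem _ hx)
        obtain ⟨b, hb, h2⟩ := ht (Set.mem_insert _ _)
        refine ⟨a * b, mul_ne_zero ha hb, fun s hs => ?_⟩
        rw [map_mul] at hs
        rw [Set.sInter_insert, h2]
        exact ⟨right_ne_zero_of_mul hs, h1 s (left_ne_zero_of_mul hs)⟩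
    obtain ⟨a, ha, h1⟩ := key t htf ht
    obtain ⟨w, hw, hψ⟩ := hd a ha
    exact ⟨⟨w, hψ⟩, h1 ⟨w, hψ⟩ hw⟩
  let U : Ultrafilter S := Ultrafilter.of F
  have hU : ∀ a : R, a ≠ 0 → ∀ᶠ s : S in (U : Filter S), s.1 a ≠ 0 := fun a ha =>
    Ultrafilter.of_le F (Filter.mem_generate_of_mem ⟨a, ha, rfl⟩)
  obtain ⟨Ω, _, _, g, hg⟩ := exists_isUP U
  obtain ⟨Φ, h1, -, h3⟩ := hg.exists_curve hX.connected (fun s : S => s.2.choose)
    (fun s => s.2.choose_spec.1)
  refine ⟨Ω, inferInstance, hg.isAlgClosed, inferInstance, Φ, h1, ?_⟩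
  rw [injective_iff_map_eq_zero]
  intro r hr
  by_contra hne
  have h4 := h3 r ![fun _ => 1, fun _ => 0]
  have h5 : (fun i => g ((![fun _ => 1, fun _ => 0] : Fin 2 → S → ℂ) i)) =
      (![1, 0] : Fin 2 → Ω) := by
    funext i
    fin_cases i
    · exact map_one g
    · exact map_zero g
  rw [h5, ← pt_apply, hr] at h4
  have h6 := (hg.zero _).1 h4.symm
  obtain ⟨s, hs1, hs2⟩ := (h6.and (hU r hne)).exists
  apply hs2
  have h7 : (fun i => (![fun _ => 1, fun _ => 0] : Fin 2 → S → ℂ) i s) = ![1, 0] := by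
    funext i
    fin_cases i <;> rfl
  rw [h7, ← pt_apply, s.2.choose_spec.2] at hs1
  exact hs1

end Vale.Agent.P292
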