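import Vale.Agent.P292.Bdl.B4

/-! # Bounded multivalued homogeneous functions of degree one with bounded derivatives are linear
forms. -/

namespace Vale.Agent.P292

universe u v

section general

open Polynomial

variable {A : Type u} [CommRing A] [IsDomain A] [IsIntegrallyClosed A] {Ω : Type v} [Field Ω]
  [Algebra A Ω] [FaithfulSMul A Ω]

/-- An additive map satisfying the Leibniz rule, on powers. -/
theorem leibniz_pow_aux {Ω : Type v} [Field Ω] (D : Ω → Ω)
    (hmul : ∀ x y, D (x * y) = D x * y + x * D y) (x : Ω) (i : ℕ) :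
    D (x ^ i) = (i : Ω) * x ^ (i - 1) * D x := by
  have hone : D 1 = 0 := by
    have h := hmul 1 1
    rw [mul_one, mul_one, one_mul] at h
    simpa using h
  induction i with
  | zero => simp [hone]
  | succ i ih =>
    rw [pow_succ, hmul, ih]
    rcases i with _ | i
    · simp
    · simp only [Nat.add_sub_cancel, Nat.cast_add, Nat.cast_one]
      ring

/-- Two derivations of `Ω` which agree on `A` agree on the elements which are integral over `A`
(characteristic zero). -/
theorem deriv_eq_zero_of_isIntegral [CharZero A] (D : Ω → Ω)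
    (hadd : ∀ x y, D (x + y) = D x + D y) (hmul : ∀ x y, D (x * y) = D x * y + x * D y)
    (h0 : ∀ a : A, D (algebraMap A Ω a) = 0) {x : Ω} (hx : IsIntegral A x) : D x = 0 := by
  classical
  have hzero : D 0 = 0 := by
    have h := hadd 0 0
    rw [add_zero] at h
    simpa using h
  have hsum : ∀ (s : Finset ℕ) (f : ℕ → Ω), D (∑ i ∈ s, f i) = ∑ i ∈ s, D (f i) := by
    intro s f
    induction s using Finset.induction_on with
    | empty => simpa using hzero
    | insert a s ha ih => rw [Finset.sum_insert ha, Finset.sum_insert ha, hadd, ih]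
  set q := minpoly A x with hq
  have h1 : aeval x q = 0 := minpoly.aeval A x
  have h2 : aeval x (derivative q) ≠ 0 := by
    intro h
    have hpos : 0 < q.natDegree := minpoly.natDegree_pos hx
    have hne : derivative q ≠ 0 := by
      intro h0
      have := derivative_eq_zero.1 h0
      omega
    have h1 := minpoly.IsIntegrallyClosed.degree_le_of_ne_zero (s := x) hne h
    exact absurd (degree_derivative_lt (minpoly.ne_zero hx)) (not_lt.2 h1)
  have h3 : aeval x (derivative q) * D x = 0 := by
    have h4 : D (aeval x q) = aeval x (derivative q) * D x := by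
      rw [aeval_eq_sum_range, hsum, derivative_apply, sum_over_range _ (fun n => by simp),
        map_sum, Finset.sum_mul]
      refine Finset.sum_congr rfl fun i _ => ?_
      rw [Algebra.smul_def, hmul, h0, zero_mul, zero_add, leibniz_pow_aux D hmul, map_mul, map_pow,
        aeval_X, aeval_C, map_mul, map_natCast]
      ring
    rw [← h4, h1, hzero]
  exact (mul_eq_zero.1 h3).resolve_left h2

/-- If `D` kills the element `y`, integral over `A`, then `D` kills the coefficients of its minimal
polynomial. -/
theorem coeff_minpoly_of_deriv_eq_zero (D : Ω → Ω) (d : A → A)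
    (hadd : ∀ x y, D (x + y) = D x + D y) (hmul : ∀ x y, D (x * y) = D x * y + x * D y)
    (hD : ∀ a : A, D (algebraMap A Ω a) = algebraMap A Ω (d a)) {y : Ω} (hy : IsIntegral A y)
    (hDy : D y = 0) (i : ℕ) : d ((minpoly A y).coeff i) = 0 := by
  classical
  have hinj : Function.Injective (algebraMap A Ω) := FaithfulSMul.algebraMap_injective A Ω
  have hone : D 1 = 0 := by
    have h := hmul 1 1
    rw [mul_one, mul_one, one_mul] at h
    simpa using h
  have hzero : D 0 = 0 := by
    have h := hadd 0 0
    rw [add_zero] at h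
    simpa using h
  have hd1 : d 1 = 0 := hinj (by rw [← hD, map_one, hone, map_zero])
  have hd0 : d 0 = 0 := hinj (by rw [← hD, map_zero, hzero])
  have hpow : ∀ i : ℕ, D (y ^ i) = 0 := by
    intro i
    rw [leibniz_pow_aux D hmul, hDy, mul_zero]
  have hsum : ∀ (s : Finset ℕ) (f : ℕ → Ω), D (∑ i ∈ s, f i) = ∑ i ∈ s, D (f i) := by
    intro s f
    induction s using Finset.induction_on with
    | empty => simpa using hzero
    | insert a s ha ih => rw [Finset.sum_insert ha, Finset.sum_insert ha, hadd, ih]
  set q := minpoly A y with hq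
  have hmon : q.Monic := minpoly.monic hy
  -- the polynomial with coefficients `d (q_i)`
  let p : A[X] := ∑ j ∈ Finset.range q.natDegree, Polynomial.monomial j (d (q.coeff j))
  have hp : aeval y p = 0 := by
    have h1 : D (aeval y q) = 0 := by rw [hq, minpoly.aeval, hzero]
    rw [aeval_eq_sum_range, hsum, Finset.sum_range_succ, hmon.coeff_natDegree, one_smul, hpow,
      add_zero] at h1
    rw [← h1, map_sum]
    refine Finset.sum_congr rfl fun j _ => ?_
    rw [aeval_monomial, Algebra.smul_def, hmul, hD, hpow, mul_zero, add_zero]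
  have hpcoeff : ∀ j < q.natDegree, p.coeff j = d (q.coeff j) := by
    intro j hj
    simp only [p, finsetSum_coeff, coeff_monomial]
    rw [Finset.sum_ite_eq' (Finset.range q.natDegree) j, if_pos (Finset.mem_range.2 hj)]
  have hpdeg : p.degree < q.degree := by
    refine lt_of_le_of_lt (degree_sum_le _ _) ?_
    rw [Finset.sup_lt_iff (bot_lt_iff_ne_bot.2 (fun h => hmon.ne_zero (degree_eq_bot.1 h)))]
    intro j hj
    refine lt_of_le_of_lt (degree_monomial_le _ _) ?_
    rw [degree_eq_natDegree hmon.ne_zero]
    exact_mod_cast Finset.mem_range.1 hj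
  have hp0 : p = 0 := by
    by_contra hne
    exact absurd hpdeg (not_lt.2 (minpoly.IsIntegrallyClosed.degree_le_of_ne_zero hne hp))
  rcases lt_trichotomy i q.natDegree with h | h | h
  · rw [← hpcoeff i h, hp0, coeff_zero]
  · rw [h, hmon.coeff_natDegree, hd1]
  · rw [coeff_eq_zero_of_natDegree_lt h, hd0]

/-- Integrality in codimension one. -/
theorem isIntegral_of_isRelPrime [DecompositionMonoid A] {a b : A} (ha : a ≠ 0) (hb : b ≠ 0)
    (hab : IsRelPrime a b) {x : Ω} (hax : IsIntegral A (a • x)) (hbx : IsIntegral A (b • x)) :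
    IsIntegral A x := by
  classical
  have h1 : minpoly A (b • (a • x)) = (minpoly A (a • x)).scaleRoots b :=
    IsIntegrallyClosed.minpoly_smul hb hax
  have h2 : minpoly A (a • (b • x)) = (minpoly A (b • x)).scaleRoots a :=
    IsIntegrallyClosed.minpoly_smul ha hbx
  set p := minpoly A (a • x) with hp
  set q := minpoly A (b • x) with hq
  have h3 : p.scaleRoots b = q.scaleRoots a := by rw [← h1, ← h2, smul_comm]
  have hdeg : p.natDegree = q.natDegree := by
    rw [← natDegree_scaleRoots p b, h3, natDegree_scaleRoots]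
  have h4 : ∀ i, a ^ (p.natDegree - i) ∣ p.coeff i := by
    intro i
    have h5 := congrArg (fun f => coeff f i) h3
    simp only [coeff_scaleRoots] at h5
    rw [← hdeg] at h5
    have h6 : a ^ (p.natDegree - i) ∣ p.coeff i * b ^ (p.natDegree - i) := by
      rw [h5]; exact dvd_mul_left _ _
    exact (IsRelPrime.pow hab).dvd_of_dvd_mul_right h6
  choose c hc using h4
  have hmon : p.Monic := minpoly.monic hax
  let r : A[X] := ∑ i ∈ Finset.range (p.natDegree + 1), Polynomial.monomial i (c i)
  have hrc : ∀ i ≤ p.natDegree, r.coeff i = c i := by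
    intro i hi
    simp only [r, finsetSum_coeff, coeff_monomial]
    rw [Finset.sum_ite_eq' (Finset.range (p.natDegree + 1)) i,
      if_pos (Finset.mem_range.2 (Nat.lt_succ_of_le hi))]
  have hcd : c p.natDegree = 1 := by
    have := hc p.natDegree
    rw [hmon.coeff_natDegree, Nat.sub_self, pow_zero, one_mul] at this
    exact this.symm
  have hrdeg : r.natDegree ≤ p.natDegree := by
    refine natDegree_sum_le_of_forall_le _ _ fun i hi => ?_
    exact (natDegree_monomial_le _).trans (Nat.lt_succ_iff.1 (Finset.mem_range.1 hi))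
  have hrmon : r.Monic := by
    apply monic_of_natDegree_le_of_coeff_eq_one p.natDegree hrdeg
    rw [hrc _ le_rfl, hcd]
  refine ⟨r, hrmon, ?_⟩
  have hinj : Function.Injective (algebraMap A Ω) := FaithfulSMul.algebraMap_injective A Ω
  have ha' : algebraMap A Ω a ≠ 0 := fun h => ha (hinj (by rw [h, map_zero]))
  have h7 : (algebraMap A Ω a) ^ p.natDegree * aeval x r = aeval (a • x) p := by
    rw [aeval_eq_sum_range' (n := p.natDegree + 1) (Nat.lt_succ_of_le hrdeg), Finset.mul_sum,
      aeval_eq_sum_range]
    refine Finset.sum_congr rfl fun i hi => ?_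
    have hi' : i ≤ p.natDegree := Nat.lt_succ_iff.1 (Finset.mem_range.1 hi)
    rw [hrc i hi', hc i, Algebra.smul_def, Algebra.smul_def, Algebra.smul_def, mul_pow, map_mul,
      map_pow]
    calc algebraMap A Ω a ^ p.natDegree * (algebraMap A Ω (c i) * x ^ i)
        = algebraMap A Ω a ^ (p.natDegree - i + i) * (algebraMap A Ω (c i) * x ^ i) := by
          rw [Nat.sub_add_cancel hi']
      _ = _ := by rw [pow_add]; ring
  rw [hp, minpoly.aeval] at h7
  exact (mul_eq_zero.1 h7).resolve_left (pow_ne_zero _ ha')

end general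

section forms

open MvPolynomial

variable {k : Type u} [Field k] [CharZero k] {Ω : Type v} [Field Ω] [Algebra k Ω]

omit [CharZero k] in
/-- The variables are relatively prime. -/
theorem isRelPrime_X_pow (n m : ℕ) :
    IsRelPrime ((X 0 : MvPolynomial (Fin 2) k) ^ n) ((X 1 : MvPolynomial (Fin 2) k) ^ m) := by
  apply IsRelPrime.pow
  intro d hd0 hd1
  have hp : Prime (X 0 : MvPolynomial (Fin 2) k) := MvPolynomial.X_prime
  obtain ⟨c, hc⟩ := hd0
  rcases hp.irreducible.isUnit_or_isUnit hc with h | h
  · exact h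
  · exfalso
    have h1 : (X 0 : MvPolynomial (Fin 2) k) ∣ X 1 := by
      refine dvd_trans ?_ hd1
      rw [hc]
      exact (IsUnit.mul_right_dvd h).2 dvd_rfl
    rw [MvPolynomial.X_dvd_X] at h1
    exact absurd h1 (by decide)

/-- A polynomial killed by the Euler operator is constant (characteristic zero). -/
theorem eq_C_of_euler_eq_zero (p : MvPolynomial (Fin 2) k)
    (h : X 0 * pderiv 0 p + X 1 * pderiv 1 p = 0) : ∃ c, p = C c := by
  classical
  refine ⟨coeff 0 p, ?_⟩
  ext m
  rw [coeff_C]
  split_ifs with hm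
  · rw [← hm]
  · have h1 : coeff m (X 0 * pderiv 0 p + X 1 * pderiv 1 p) =
        ((m 0 : k) + (m 1 : k)) * coeff m p := by
      have key : ∀ i : Fin 2, coeff m (X i * pderiv i p) = (m i : k) * coeff m p := by
        intro i
        rw [coeff_X_mul']
        split_ifs with hi
        · rw [coeff_pderiv]
          have h2 : m - Finsupp.single i 1 + Finsupp.single i 1 = m := by
            apply tsub_add_cancel_of_le
            rw [Finsupp.single_le_iff]
            exact Nat.one_le_iff_ne_zero.2 (Finsupp.mem_support_iff.1 hi)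
          rw [h2]
          have h3 : (((m - Finsupp.single i 1 : Fin 2 →₀ ℕ) i : ℕ) : k) + 1 = (m i : k) := by
            have h4 : m i ≠ 0 := Finsupp.mem_support_iff.1 hi
            have h5 : (m - Finsupp.single i 1 : Fin 2 →₀ ℕ) i + 1 = m i := by
              simp only [Finsupp.coe_tsub, Pi.sub_apply, Finsupp.single_eq_same]
              omega
            exact_mod_cast h5
          rw [h3, mul_comm]
        · have h4 : m i = 0 := by simpa using hi
          rw [h4, Nat.cast_zero, zero_mul]
      rw [coeff_add, key, key, add_mul]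
    rw [h, coeff_zero] at h1
    have h2 : ((m 0 : k) + (m 1 : k)) ≠ 0 := by
      rw [← Nat.cast_add, Nat.cast_ne_zero]
      intro h3
      apply hm
      ext i
      fin_cases i
      · simp; omega
      · simp; omega
    exact ((mul_eq_zero.1 h1.symm).resolve_left h2)

/-- A function which is integral over the polynomial ring and killed by the Euler operator is
algebraic over the constants. -/
theorem isAlgebraic_of_euler_eq_zero [Algebra (MvPolynomial (Fin 2) k) Ω]
    [IsScalarTower k (MvPolynomial (Fin 2) k) Ω]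
    [FaithfulSMul (MvPolynomial (Fin 2) k) Ω] (Ds Dt : Derivation k Ω Ω)
    (hs : ∀ p : MvPolynomial (Fin 2) k, Ds (algebraMap _ Ω p) = algebraMap _ Ω (pderiv 0 p))
    (ht : ∀ p : MvPolynomial (Fin 2) k, Dt (algebraMap _ Ω p) = algebraMap _ Ω (pderiv 1 p))
    {y : Ω} (hy : IsIntegral (MvPolynomial (Fin 2) k) y)
    (h : algebraMap (MvPolynomial (Fin 2) k) Ω (X 0) * Ds y +
      algebraMap (MvPolynomial (Fin 2) k) Ω (X 1) * Dt y = 0) : IsAlgebraic k y := by
  classical
  let E : Ω → Ω := fun x => algebraMap (MvPolynomial (Fin 2) k) Ω (X 0) * Ds x +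
      algebraMap (MvPolynomial (Fin 2) k) Ω (X 1) * Dt x
  have hE : ∀ x, E x = algebraMap (MvPolynomial (Fin 2) k) Ω (X 0) * Ds x +
      algebraMap (MvPolynomial (Fin 2) k) Ω (X 1) * Dt x := fun _ => rfl
  have hcoeff := fun i => coeff_minpoly_of_deriv_eq_zero (A := MvPolynomial (Fin 2) k) E
    (fun p => X 0 * pderiv 0 p + X 1 * pderiv 1 p)
    (fun x y => by rw [hE, hE, hE, map_add, map_add]; ring)
    (fun x y => by
      rw [hE, hE, hE, Derivation.leibniz, Derivation.leibniz]
      simp only [smul_eq_mul]
      ring)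
    (fun p => by rw [hE, hs, ht, map_add, map_mul, map_mul]) hy h i
  have hC : ∀ i, ∃ c, (minpoly (MvPolynomial (Fin 2) k) y).coeff i = C c := fun i =>
    eq_C_of_euler_eq_zero _ (hcoeff i)
  choose c hc using hC
  set q := minpoly (MvPolynomial (Fin 2) k) y with hq
  have hmon : q.Monic := minpoly.monic hy
  let p : Polynomial k := ∑ i ∈ Finset.range (q.natDegree + 1), Polynomial.monomial i (c i)
  have hpq : p.map (C : k →+* MvPolynomial (Fin 2) k) = q := by
    conv_rhs => rw [q.as_sum_range' (q.natDegree + 1) (Nat.lt_succ_self _)]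
    simp only [p, Polynomial.map_sum, Polynomial.map_monomial]
    exact Finset.sum_congr rfl fun i _ => by rw [hc i]
  refine ⟨p, ?_, ?_⟩
  · intro h0
    rw [h0, Polynomial.map_zero] at hpq
    exact hmon.ne_zero hpq.symm
  · have h1 : Polynomial.aeval y (p.map (algebraMap k (MvPolynomial (Fin 2) k))) = 0 := by
      have h2 : p.map (algebraMap k (MvPolynomial (Fin 2) k)) = q := hpq
      rw [h2, hq, minpoly.aeval]
    rwa [Polynomial.aeval_map_algebraMap] at h1

omit [CharZero k] in
/-- An element which lies in all the valuation rings of `Ω` which contain `k[s, t]` and in which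
`s` or `t` is invertible is integral over `k[s, t]`. -/
theorem isIntegral_of_forall_punctured [Algebra (MvPolynomial (Fin 2) k) Ω]
    [IsScalarTower k (MvPolynomial (Fin 2) k) Ω]
    [FaithfulSMul (MvPolynomial (Fin 2) k) Ω] {y : Ω}
    (hO : ∀ O : ValuationSubring Ω, (∀ p : MvPolynomial (Fin 2) k, algebraMap _ Ω p ∈ O) →
      ((algebraMap (MvPolynomial (Fin 2) k) Ω (X 0))⁻¹ ∈ O ∨
        (algebraMap (MvPolynomial (Fin 2) k) Ω (X 1))⁻¹ ∈ O) → y ∈ O) :
    IsIntegral (MvPolynomial (Fin 2) k) y := by
  classical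
  have hinj : Function.Injective (algebraMap (MvPolynomial (Fin 2) k) Ω) :=
    FaithfulSMul.algebraMap_injective _ Ω
  have key : ∀ i : Fin 2, (∀ O : ValuationSubring Ω,
      (∀ p : MvPolynomial (Fin 2) k, algebraMap _ Ω p ∈ O) →
      (algebraMap (MvPolynomial (Fin 2) k) Ω (X i))⁻¹ ∈ O → y ∈ O) →
      ∃ n : ℕ, IsIntegral (MvPolynomial (Fin 2) k) ((X i : MvPolynomial (Fin 2) k) ^ n • y) := by
    intro i hi
    have hX : (X i : MvPolynomial (Fin 2) k) ≠ 0 := X_ne_zero i
    have hX' : algebraMap (MvPolynomial (Fin 2) k) Ω (X i) ≠ 0 := fun h =>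
      hX (hinj (by rw [h, map_zero]))
    let L := Localization.Away (X i : MvPolynomial (Fin 2) k)
    let f : L →+* Ω := IsLocalization.Away.lift (X i : MvPolynomial (Fin 2) k)
      (g := algebraMap (MvPolynomial (Fin 2) k) Ω) (isUnit_iff_ne_zero.2 hX')
    have hf : ∀ p : MvPolynomial (Fin 2) k, f (algebraMap _ L p) = algebraMap _ Ω p := fun p =>
      IsLocalization.Away.lift_eq _ _ p
    let inst : Algebra L Ω := f.toAlgebra
    have inst2 : IsScalarTower (MvPolynomial (Fin 2) k) L Ω :=
      IsScalarTower.of_algebraMap_eq fun p => (hf p).symm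
    have h1 : IsIntegral L y := by
      refine isIntegral_of_forall_valuationSubring y fun V hV => hi V (fun p => ?_) ?_
      · rw [← hf p]; exact hV _
      · have h2 : (algebraMap (MvPolynomial (Fin 2) k) Ω (X i))⁻¹ =
            algebraMap L Ω (IsLocalization.Away.invSelf (X i : MvPolynomial (Fin 2) k)) := by
          symm
          apply eq_inv_of_mul_eq_one_left
          rw [← hf (X i)]
          change f _ * f _ = 1
          rw [← map_mul, mul_comm, IsLocalization.Away.mul_invSelf, map_one]
        rw [h2]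
        exact hV _
    obtain ⟨⟨m, n, hm⟩, hm'⟩ :=
      h1.exists_multiple_integral_of_isLocalization
        (Submonoid.powers (X i : MvPolynomial (Fin 2) k)) y
    refine ⟨n, ?_⟩
    have hm2 : (X i : MvPolynomial (Fin 2) k) ^ n = m := hm
    rw [hm2]
    exact hm'
  obtain ⟨n, hn⟩ := key 0 fun O h1 h2 => hO O h1 (Or.inl h2)
  obtain ⟨m, hm⟩ := key 1 fun O h1 h2 => hO O h1 (Or.inr h2)
  exact isIntegral_of_isRelPrime (pow_ne_zero n (X_ne_zero 0)) (pow_ne_zero m (X_ne_zero 1))
    (isRelPrime_X_pow (k := k) n m) hn hm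

/-- **Linearity.** A multivalued function `x` on the punctured plane, homogeneous of degree one,
bounded together with its first derivatives near every valuation centred outside the origin, has
algebraic first derivatives. -/
theorem isAlgebraic_deriv_of_bounded (s t : Ω) (hst : AlgebraicIndependent k ![s, t])
    (Ds Dt : Derivation k Ω Ω) (hss : Ds s = 1) (hst' : Ds t = 0) (hts : Dt s = 0)
    (htt : Dt t = 1) (x : Ω)
    (hO : ∀ O : ValuationSubring Ω, (∀ c : k, algebraMap k Ω c ∈ O) → s ∈ O → t ∈ O →
      (s⁻¹ ∈ O ∨ t⁻¹ ∈ O) → x ∈ O ∧ Ds x ∈ O ∧ Dt x ∈ O)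
    (heul : s * Ds x + t * Dt x = x) : IsAlgebraic k (Ds x) ∧ IsAlgebraic k (Dt x) := by
  classical
  let A := MvPolynomial (Fin 2) k
  let e : A →ₐ[k] Ω := MvPolynomial.aeval ![s, t]
  have he : Function.Injective e := hst
  let inst : Algebra A Ω := e.toRingHom.toAlgebra
  have hdef : ∀ p : A, algebraMap A Ω p = e p := fun _ => rfl
  have inst2 : IsScalarTower k A Ω := IsScalarTower.of_algebraMap_eq fun c => by
    rw [hdef, AlgHom.commutes]
  have inst3 : FaithfulSMul A Ω := (faithfulSMul_iff_algebraMap_injective A Ω).2 he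
  have hX0 : algebraMap A Ω (X 0) = s := by
    rw [hdef]; exact (MvPolynomial.aeval_X _ _).trans rfl
  have hX1 : algebraMap A Ω (X 1) = t := by
    rw [hdef]; exact (MvPolynomial.aeval_X _ _).trans rfl
  have hint : ∀ y : Ω, (∀ O : ValuationSubring Ω, (∀ c : k, algebraMap k Ω c ∈ O) → s ∈ O →
      t ∈ O → (s⁻¹ ∈ O ∨ t⁻¹ ∈ O) → y ∈ O) → IsIntegral A y := by
    intro y hy
    refine isIntegral_of_forall_punctured fun O h1 h2 => ?_
    rw [hX0, hX1] at h2
    refine hy O (fun c => ?_) ?_ ?_ h2
    · rw [IsScalarTower.algebraMap_apply k A Ω]; exact h1 _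
    · rw [← hX0]; exact h1 _
    · rw [← hX1]; exact h1 _
  have hx := hint x fun O h1 h2 h3 h4 => (hO O h1 h2 h3 h4).1
  have hu := hint (Ds x) fun O h1 h2 h3 h4 => (hO O h1 h2 h3 h4).2.1
  have hv := hint (Dt x) fun O h1 h2 h3 h4 => (hO O h1 h2 h3 h4).2.2
  -- the derivations on polynomials
  have hD : ∀ (D : Derivation k Ω Ω) (p : A), D (algebraMap A Ω p) =
      algebraMap A Ω (pderiv 0 p) * D s + algebraMap A Ω (pderiv 1 p) * D t := by
    intro D p
    induction p using MvPolynomial.induction_on with
    | C c =>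
      have h1 : algebraMap A Ω (C c) = algebraMap k Ω c := by
        rw [IsScalarTower.algebraMap_apply k A Ω]; rfl
      rw [h1, Derivation.map_algebraMap]
      simp
    | add p q hp hq => rw [map_add, map_add, hp, hq, map_add, map_add, map_add, map_add]; ring
    | mul_X p i hp =>
      rw [map_mul, Derivation.leibniz, hp]
      simp only [smul_eq_mul, Derivation.leibniz, map_add, map_mul]
      fin_cases i
      · simp only [Fin.zero_eta, hX0, pderiv_X_self, map_one]
        rw [pderiv_X_of_ne (by decide : (0 : Fin 2) ≠ 1), map_zero]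
        ring
      · simp only [Fin.mk_one, hX1, pderiv_X_self, map_one]
        rw [pderiv_X_of_ne (by decide : (1 : Fin 2) ≠ 0), map_zero]
        ring
  have hs : ∀ p : A, Ds (algebraMap A Ω p) = algebraMap A Ω (pderiv 0 p) := by
    intro p; rw [hD, hss, hst', mul_one, mul_zero, add_zero]
  have ht : ∀ p : A, Dt (algebraMap A Ω p) = algebraMap A Ω (pderiv 1 p) := by
    intro p; rw [hD, hts, htt, mul_one, mul_zero, zero_add]
  -- the derivations commute on `x`
  have hcomm : Ds (Dt x) = Dt (Ds x) := by
    have h1 : (⁅Ds, Dt⁆ : Derivation k Ω Ω) x = 0 := by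
      refine deriv_eq_zero_of_isIntegral (A := A) (fun z => (⁅Ds, Dt⁆ : Derivation k Ω Ω) z)
        (fun a b => map_add _ a b) (fun a b => ?_) (fun a => ?_) hx
      · rw [Derivation.leibniz]
        simp only [smul_eq_mul]
        ring
      · change (⁅Ds, Dt⁆ : Derivation k Ω Ω) (algebraMap A Ω a) = 0
        rw [hD, Derivation.commutator_apply, Derivation.commutator_apply, hss, hst', hts, htt]
        simp
    rw [Derivation.commutator_apply] at h1
    exact sub_eq_zero.1 h1
  have h1 := congrArg Ds heul
  have h2 := congrArg Dt heul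
  rw [map_add, Derivation.leibniz, Derivation.leibniz, hss, hst'] at h1
  rw [map_add, Derivation.leibniz, Derivation.leibniz, hts, htt] at h2
  simp only [smul_eq_mul, mul_one, mul_zero, add_zero] at h1 h2
  constructor
  · refine isAlgebraic_of_euler_eq_zero Ds Dt hs ht hu ?_
    rw [hX0, hX1, ← hcomm]
    linear_combination h1
  · refine isAlgebraic_of_euler_eq_zero Ds Dt hs ht hv ?_
    rw [hX0, hX1, hcomm]
    linear_combination h2

/-- **Linearity**, over an algebraically closed field of constants. -/
theorem exists_linear_of_bounded [IsAlgClosed k] (s t : Ω) (hst : AlgebraicIndependent k ![s, t])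
    (Ds Dt : Derivation k Ω Ω) (hss : Ds s = 1) (hst' : Ds t = 0) (hts : Dt s = 0)
    (htt : Dt t = 1) (x : Ω)
    (hO : ∀ O : ValuationSubring Ω, (∀ c : k, algebraMap k Ω c ∈ O) → s ∈ O → t ∈ O →
      (s⁻¹ ∈ O ∨ t⁻¹ ∈ O) → x ∈ O ∧ Ds x ∈ O ∧ Dt x ∈ O)
    (heul : s * Ds x + t * Dt x = x) :
    ∃ α β : k, Ds x = algebraMap k Ω α ∧ Dt x = algebraMap k Ω β ∧
      x = algebraMap k Ω α * s + algebraMap k Ω β * t := by
  obtain ⟨h1, h2⟩ := isAlgebraic_deriv_of_bounded s t hst Ds Dt hss hst' hts htt x hO heul
  have key : ∀ y : Ω, IsAlgebraic k y → ∃ α : k, y = algebraMap k Ω α := by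
    intro y hy
    have hy' : IsIntegral k y := hy.isIntegral
    have hd := IsAlgClosed.degree_eq_one_of_irreducible k (minpoly.irreducible hy')
    obtain ⟨α, hα⟩ := minpoly.mem_range_of_degree_eq_one k y hd
    exact ⟨α, hα.symm⟩
  obtain ⟨α, hα⟩ := key _ h1
  obtain ⟨β, hβ⟩ := key _ h2
  refine ⟨α, β, hα, hβ, ?_⟩
  rw [← hα, ← hβ]
  linear_combination -heul

end forms

end Vale.Agent.P292
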